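import Mathlib

/-! Averages over `[0, 2π]` of continuous functions and the abstract scalar inequality. -/

set_option autoImplicit false

open Set Filter Metric Topology Complex Function
open scoped ComplexConjugate Real

namespace Crest.Agent.R132

/-- The average over `[0, 2π]`. -/
noncomputable def avg {E : Type*} [NormedAddCommGroup E] [NormedSpace ℝ E] (f : ℝ → E) : E :=
  (2 * π)⁻¹ • ∫ θ in (0 : ℝ)..2 * π, f θ

section
variable {E : Type*} [NormedAddCommGroup E] [NormedSpace ℝ E]

theorem circleAverage_eq_avg (f : ℂ → E) (c : ℂ) (R : ℝ) :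
    Real.circleAverage f c R = avg (fun θ => f (circleMap c R θ)) := rfl

theorem avg_const [CompleteSpace E] (c : E) : avg (fun _ => c) = c := by
  simp only [avg, intervalIntegral.integral_const, sub_zero, smul_smul]
  rw [inv_mul_cancel₀ (by positivity), one_smul]

theorem avg_add {f g : ℝ → E} (hf : Continuous f) (hg : Continuous g) :
    avg (fun θ => f θ + g θ) = avg f + avg g := by
  simp only [avg]
  rw [intervalIntegral.integral_add (hf.intervalIntegrable _ _) (hg.intervalIntegrable _ _),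
    smul_add]

theorem avg_sub {f g : ℝ → E} (hf : Continuous f) (hg : Continuous g) :
    avg (fun θ => f θ - g θ) = avg f - avg g := by
  simp only [avg]
  rw [intervalIntegral.integral_sub (hf.intervalIntegrable _ _) (hg.intervalIntegrable _ _),
    smul_sub]

theorem avg_sum {ι : Type*} (s : Finset ι) {f : ι → ℝ → E} (hf : ∀ i ∈ s, Continuous (f i)) :
    avg (fun θ => ∑ i ∈ s, f i θ) = ∑ i ∈ s, avg (f i) := by
  simp only [avg]
  rw [intervalIntegral.integral_finsetSum (fun i hi => (hf i hi).intervalIntegrable _ _),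
    Finset.smul_sum]

theorem avg_swap {F : ℝ → ℝ → E} (hF : Continuous (uncurry F)) :
    avg (fun x => avg (fun y => F x y)) = avg (fun y => avg (fun x => F x y)) := by
  simp only [avg, intervalIntegral.integral_smul]
  rw [MeasureTheory.intervalIntegral_intervalIntegral_swap]
  refine (hF.continuousOn.integrableOn_compact
    (isCompact_uIcc.prod isCompact_uIcc)).mono_set (prod_mono uIoc_subset_uIcc uIoc_subset_uIcc)

theorem continuous_avg {X : Type*} [TopologicalSpace X] {F : X → ℝ → E}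
    (hF : Continuous (uncurry F)) : Continuous fun x => avg (F x) :=
  (intervalIntegral.continuous_parametric_intervalIntegral_of_continuous' hF _ _).const_smul _

theorem avg_clm {F : Type*} [NormedAddCommGroup F] [NormedSpace ℝ F] [CompleteSpace E]
    [CompleteSpace F] (L : E →L[ℝ] F) {f : ℝ → E} (hf : Continuous f) :
    avg (fun θ => L (f θ)) = L (avg f) := by
  simp only [avg]
  rw [L.intervalIntegral_comp_comm (hf.intervalIntegrable _ _), map_smul]

end

theorem avg_const_mul (c : ℂ) (f : ℝ → ℂ) : avg (fun θ => c * f θ) = c * avg f := by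
  simp only [avg, intervalIntegral.integral_const_mul, mul_smul_comm]

theorem avg_mul_const (c : ℂ) (f : ℝ → ℂ) : avg (fun θ => f θ * c) = avg f * c := by
  simp only [mul_comm _ c, avg_const_mul]

theorem avg_const_mul_real (c : ℝ) (f : ℝ → ℝ) : avg (fun θ => c * f θ) = c * avg f := by
  simp only [avg, intervalIntegral.integral_const_mul, mul_smul_comm]

theorem avg_conj (f : ℝ → ℂ) : avg (fun θ => conj (f θ)) = conj (avg f) := by
  simp only [avg, intervalIntegral.intervalIntegral_conj, real_smul, map_mul, conj_ofReal]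

theorem avg_re {f : ℝ → ℂ} (hf : Continuous f) : avg (fun θ => (f θ).re) = (avg f).re :=
  avg_clm reCLM hf

theorem avg_ofReal (f : ℝ → ℝ) : avg (fun θ => (f θ : ℂ)) = ((avg f : ℝ) : ℂ) := by
  simp only [avg, intervalIntegral.integral_ofReal, real_smul, smul_eq_mul, ofReal_mul]

theorem avg_mono {f g : ℝ → ℝ} (hf : Continuous f) (hg : Continuous g) (h : ∀ θ, f θ ≤ g θ) :
    avg f ≤ avg g := by
  simp only [avg, smul_eq_mul]
  refine mul_le_mul_of_nonneg_left ?_ (by positivity)
  exact intervalIntegral.integral_mono_on (by positivity) (hf.intervalIntegrable _ _)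
    (hg.intervalIntegrable _ _) fun θ _ => h θ

theorem avg_nonneg {f : ℝ → ℝ} (h : ∀ θ, 0 ≤ f θ) : 0 ≤ avg f := by
  simp only [avg, smul_eq_mul]
  exact mul_nonneg (by positivity) (intervalIntegral.integral_nonneg (by positivity) fun θ _ => h θ)

theorem jensen {k : ℝ → ℝ} {f : ℝ → ℂ} (hk : Continuous k) (hf : Continuous f)
    (h0 : ∀ θ, 0 ≤ k θ) (h1 : avg k = 1) :
    ‖avg (fun θ => (k θ : ℂ) * f θ)‖ ^ 2 ≤ avg (fun θ => k θ * ‖f θ‖ ^ 2) := by
  set t := avg (fun θ => (k θ : ℂ) * f θ) with ht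
  have h2 : 0 ≤ avg (fun θ => k θ * ‖f θ - t‖ ^ 2) :=
    avg_nonneg fun θ => mul_nonneg (h0 θ) (sq_nonneg _)
  have h3 : (fun θ => k θ * ‖f θ - t‖ ^ 2) = fun θ => (k θ * ‖f θ‖ ^ 2
      - 2 * (conj t * ((k θ : ℂ) * f θ)).re) + ‖t‖ ^ 2 * k θ := by
    ext θ
    simp only [Complex.sq_norm, normSq_apply, sub_re, sub_im, mul_re, mul_im, conj_re, conj_im,
      ofReal_re, ofReal_im]
    ring
  rw [h3, avg_add (by fun_prop) (by fun_prop), avg_sub (by fun_prop) (by fun_prop),
    avg_const_mul_real, avg_const_mul_real, avg_re (by fun_prop), avg_const_mul, ← ht, h1,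
    Complex.conj_mul'] at h2
  norm_cast at h2
  linarith

theorem schur {k : ℝ → ℝ → ℝ} {f : ℝ → ℂ} (hk : Continuous (uncurry k)) (hf : Continuous f)
    (h0 : ∀ η θ, 0 ≤ k η θ) (h1 : ∀ θ, avg (fun η => k η θ) = 1)
    (h2 : ∀ η, avg (fun θ => k η θ) = 1) :
    avg (fun θ => ‖avg (fun η => (k η θ : ℂ) * f η)‖ ^ 2) ≤ avg (fun η => ‖f η‖ ^ 2) := by
  calc avg (fun θ => ‖avg (fun η => (k η θ : ℂ) * f η)‖ ^ 2)
      ≤ avg (fun θ => avg (fun η => k η θ * ‖f η‖ ^ 2)) := by
        refine avg_mono ?_ ?_ fun θ => jensen (by fun_prop) hf (fun η => h0 η θ) (h1 θ)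
        · exact ((continuous_avg (F := fun θ η => (k η θ : ℂ) * f η) (by fun_prop)).norm).pow 2
        · exact continuous_avg (F := fun θ η => k η θ * ‖f η‖ ^ 2) (by fun_prop)
    _ = avg (fun η => avg (fun θ => k η θ * ‖f η‖ ^ 2)) :=
        avg_swap (F := fun θ η => k η θ * ‖f η‖ ^ 2) (by fun_prop)
    _ = avg (fun η => ‖f η‖ ^ 2) := by
        congr 1
        ext η
        simp only [mul_comm (k η _), avg_const_mul_real, h2, mul_one]

theorem pairing {M : ℝ → ℝ → ℂ} {a G : ℝ → ℂ} (hM : Continuous (uncurry M)) (ha : Continuous a)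
    (hG : Continuous G) :
    avg (fun θ => G θ * avg (fun η => M η θ * a η))
      = avg (fun η => a η * avg (fun θ => M η θ * G θ)) := by
  simp only [← avg_const_mul]
  rw [avg_swap (F := fun θ η => G θ * (M η θ * a η)) (by fun_prop)]
  congr 1; ext η; congr 1; ext θ; ring

/-- The abstract scalar inequality. -/
theorem key_abs {N C : ℝ → ℝ → ℂ} (hN : Continuous (uncurry N)) (hC : Continuous (uncurry C))
    {a F G : ℝ → ℂ} (ha : Continuous a) (hG : Continuous G) {a0 : ℂ}
    (h1N : ∀ θ, avg (fun η => N η θ * a η) = a0) (h1C : ∀ θ, avg (fun η => C η θ * a η) = a0)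
    (h1 : avg a = a0)
    (h2N : ∀ θ, avg (fun η => N η θ) = 1) (h2C : ∀ θ, avg (fun η => C η θ) = 1)
    (h2N' : ∀ η, avg (fun θ => N η θ) = 1) (h2C' : ∀ η, avg (fun θ => C η θ) = 1)
    (h3 : ∀ η, avg (fun θ => N η θ * G θ) = a η) (h3' : avg G = a0)
    (h4 : ∀ η, avg (fun θ => N η θ * F θ) = avg (fun θ => C η θ * F θ)) (h4' : avg F = a0)
    (hF : ∀ θ, avg (fun η => conj (C η θ) * a η) = F θ)
    (hP : ∀ η θ, 0 ≤ 2 * (C η θ).re - 1) (hk : ∀ η θ, 0 ≤ 1 + 2 * (N η θ - C η θ).re) :
    avg (fun η => ‖a η‖ ^ 2) + ‖a0‖ ^ 2 ≤ 2 * avg (fun θ => ‖G θ‖ ^ 2) := by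
  set TN : ℝ → ℂ := fun θ => avg (fun η => N η θ * conj (a η)) with hTN
  set TC : ℝ → ℂ := fun θ => avg (fun η => C η θ * conj (a η)) with hTC
  have cTN : Continuous TN := continuous_avg (F := fun θ η => N η θ * conj (a η)) (by fun_prop)
  have cTC : Continuous TC := continuous_avg (F := fun θ η => C η θ * conj (a η)) (by fun_prop)
  have hFC : ∀ θ, F θ = conj (TC θ) := fun θ => by
    rw [← hF, hTC, ← avg_conj]; simp
  have cF : Continuous F := by
    rw [show F = fun θ => conj (TC θ) from funext hFC]; fun_prop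
  have bN : ∀ θ, avg (fun η => conj (N η θ) * conj (a η)) = conj a0 := fun θ => by
    rw [← h1N θ, ← avg_conj]; simp
  have bC : ∀ θ, avg (fun η => conj (C η θ) * conj (a η)) = conj a0 := fun θ => by
    rw [← h1C θ, ← avg_conj]; simp
  have b1 : avg (fun η => conj (a η)) = conj a0 := by rw [← h1, avg_conj]
  have eP : ∀ θ, avg (fun η => ((2 * (C η θ).re - 1 : ℝ) : ℂ) * conj (a η)) = TC θ := by
    intro θ
    have : (fun η => ((2 * (C η θ).re - 1 : ℝ) : ℂ) * conj (a η)) = fun η =>
        (C η θ * conj (a η) + conj (C η θ) * conj (a η)) - conj (a η) := by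
      ext η
      have := Complex.add_conj (C η θ)
      push_cast at this ⊢
      rw [← this]; ring
    rw [this, avg_sub (by fun_prop) (by fun_prop), avg_add (by fun_prop) (by fun_prop), bC, b1]
    simp [hTC]
  have ek : ∀ θ, avg (fun η => ((1 + 2 * (N η θ - C η θ).re : ℝ) : ℂ) * conj (a η))
      = TN θ + conj a0 - TC θ := by
    intro θ
    have : (fun η => ((1 + 2 * (N η θ - C η θ).re : ℝ) : ℂ) * conj (a η)) = fun η =>
        ((conj (a η) + N η θ * conj (a η)) + conj (N η θ) * conj (a η))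
          - (C η θ * conj (a η) + conj (C η θ) * conj (a η)) := by
      ext η
      have := Complex.add_conj (N η θ - C η θ)
      push_cast at this ⊢
      rw [← this, map_sub]; ring
    rw [this, avg_sub (by fun_prop) (by fun_prop), avg_add (by fun_prop) (by fun_prop),
      avg_add (by fun_prop) (by fun_prop), avg_add (by fun_prop) (by fun_prop), bC, bN, b1]
    simp only [hTN, hTC]; ring
  have sP := schur (k := fun η θ => 2 * (C η θ).re - 1) (f := fun η => conj (a η)) (by fun_prop)
    (by fun_prop) hP (fun θ => by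
      rw [avg_sub (by fun_prop) (by fun_prop), avg_const_mul_real, avg_re (by fun_prop), h2C,
        avg_const]; norm_num) (fun η => by
      rw [avg_sub (by fun_prop) (by fun_prop), avg_const_mul_real, avg_re (by fun_prop), h2C',
        avg_const]; norm_num)
  have sk := schur (k := fun η θ => 1 + 2 * (N η θ - C η θ).re) (f := fun η => conj (a η))
    (by fun_prop) (by fun_prop) hk (fun θ => by
      rw [avg_add (by fun_prop) (by fun_prop), avg_const_mul_real, avg_re (by fun_prop),
        avg_sub (by fun_prop) (by fun_prop), h2N, h2C, avg_const]; norm_num) (fun η => by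
      rw [avg_add (by fun_prop) (by fun_prop), avg_const_mul_real, avg_re (by fun_prop),
        avg_sub (by fun_prop) (by fun_prop), h2N', h2C', avg_const]; norm_num)
  simp only [eP, ek, RCLike.norm_conj] at sP sk
  have hX : avg (fun θ => G θ * (TN θ + conj a0))
      = ((avg (fun η => ‖a η‖ ^ 2) + ‖a0‖ ^ 2 : ℝ) : ℂ) := by
    simp only [mul_add]
    rw [avg_add (by fun_prop) (by fun_prop), avg_mul_const, h3', hTN,
      pairing hN (by fun_prop) hG]
    simp only [h3, Complex.conj_mul', Complex.mul_conj']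
    push_cast
    rw [← avg_ofReal]; push_cast; rfl
  have hcross : avg (fun θ => F θ * (TN θ + conj a0 - TC θ)) = ((‖a0‖ ^ 2 : ℝ) : ℂ) := by
    simp only [mul_add, mul_sub]
    rw [avg_sub (by fun_prop) (by fun_prop), avg_add (by fun_prop) (by fun_prop), avg_mul_const,
      h4', hTN, hTC, pairing hN (by fun_prop) cF, pairing hC (by fun_prop) cF]
    simp only [h4, Complex.mul_conj']
    push_cast; ring
  have hΦ : avg (fun θ => ‖TN θ + conj a0‖ ^ 2) = avg (fun θ => ‖TC θ‖ ^ 2)
      + avg (fun θ => ‖TN θ + conj a0 - TC θ‖ ^ 2) + 2 * ‖a0‖ ^ 2 := by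
    have : (fun θ => ‖TN θ + conj a0‖ ^ 2) = fun θ => (‖TC θ‖ ^ 2 + ‖TN θ + conj a0 - TC θ‖ ^ 2)
        + 2 * (F θ * (TN θ + conj a0 - TC θ)).re := by
      ext θ
      rw [hFC]
      generalize TN θ + conj a0 = w
      simp only [Complex.sq_norm, normSq_apply, sub_re, sub_im, mul_re, conj_re, conj_im]
      ring
    rw [this, avg_add (by fun_prop) (by fun_prop), avg_add (by fun_prop) (by fun_prop),
      avg_const_mul_real, avg_re (by fun_prop), hcross, ofReal_re]
  have hAM : avg (fun θ => (G θ * (TN θ + conj a0)).re)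
      ≤ avg (fun θ => ‖G θ‖ ^ 2 + (1 / 4) * ‖TN θ + conj a0‖ ^ 2) := by
    refine avg_mono (by fun_prop) (by fun_prop) fun θ => ?_
    have h := (Complex.re_le_norm (G θ * (TN θ + conj a0))).trans_eq (norm_mul _ _)
    nlinarith [sq_nonneg (‖G θ‖ - ‖TN θ + conj a0‖ / 2)]
  rw [avg_re (by fun_prop), hX, ofReal_re, avg_add (by fun_prop) (by fun_prop),
    avg_const_mul_real, hΦ] at hAM
  linarith

/-- The average of `|f + conj g|²` when `avg (f g)` is known. -/
theorem avg_norm_add_conj {f g : ℝ → ℂ} (hf : Continuous f) (hg : Continuous g) :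
    avg (fun θ => ‖f θ + conj (g θ)‖ ^ 2) = avg (fun θ => ‖f θ‖ ^ 2) + avg (fun θ => ‖g θ‖ ^ 2)
      + 2 * (avg (fun θ => f θ * g θ)).re := by
  have : (fun θ => ‖f θ + conj (g θ)‖ ^ 2)
      = fun θ => (‖f θ‖ ^ 2 + ‖g θ‖ ^ 2) + 2 * (f θ * g θ).re := by
    ext θ
    simp only [Complex.sq_norm, normSq_apply, add_re, add_im, mul_re, conj_re, conj_im]
    ring
  rw [this, avg_add (by fun_prop) (by fun_prop), avg_add (by fun_prop) (by fun_prop),
    avg_const_mul_real, avg_re (by fun_prop)]

/-- Cauchy's theorem for a closed curve in a convex open set. -/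
theorem circleAverage_curve {E : Type*} [NormedAddCommGroup E] [NormedSpace ℂ E] [CompleteSpace E]
    {W : Set ℂ} (hW : IsOpen W) (hWc : Convex ℝ W) {H : ℂ → E} (hH : DifferentiableOn ℂ H W)
    {γ : ℂ → ℂ} {ρ : ℝ} (hρ : 0 < ρ) (hγ : ∀ u ∈ sphere (0 : ℂ) ρ, DifferentiableAt ℂ γ u)
    (hγW : ∀ u ∈ sphere (0 : ℂ) ρ, γ u ∈ W) :
    Real.circleAverage (fun u => (u * deriv γ u) • H (γ u)) 0 ρ = 0 := by
  obtain ⟨Ψ, hΨ⟩ := hWc.exists_forall_hasDerivWithinAt hH
  rw [Real.circleAverage_eq_circleIntegral hρ.ne']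
  have : (∮ z in C(0, ρ), (z - 0)⁻¹ • (z * deriv γ z) • H (γ z)) = 0 := by
    refine circleIntegral.integral_eq_zero_of_hasDerivWithinAt (f := fun z => Ψ (γ z)) hρ.le
      fun z hz => ?_
    have hz0 : z ≠ 0 := by
      rintro rfl
      simp [hρ.ne] at hz
    have h1 := ((hΨ _ (hγW z hz)).hasDerivAt (hW.mem_nhds (hγW z hz))).scomp z
      (hγ z hz).hasDerivAt
    refine (HasDerivAt.congr_deriv h1 ?_).hasDerivWithinAt
    rw [smul_smul, sub_zero, ← mul_assoc, inv_mul_cancel₀ hz0, one_mul]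
  rw [this, smul_zero]

end Crest.Agent.R132
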