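import Mathlib

/-! A relation-style holomorphic functional calculus: `Calc A O f Q` says that `Q = f(A)` in the
sense that `f(σ) - Q` is divisible by `σ - A` holomorphically on `O`. -/

set_option autoImplicit false

open Set Filter Metric Topology Complex Function Polynomial

namespace Crest.Agent.R132

variable {𝔸 : Type*} [NormedRing 𝔸] [NormedAlgebra ℂ 𝔸]

/-- `Q` represents `f(A)`. -/
def Calc (A : 𝔸) (O : Set ℂ) (f : ℂ → ℂ) (Q : 𝔸) : Prop :=
  DifferentiableOn ℂ f O ∧ A * Q = Q * A ∧ ∃ h : ℂ → 𝔸, DifferentiableOn ℂ h O ∧ ∀ σ ∈ O,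
    f σ • (1 : 𝔸) - Q = (σ • (1 : 𝔸) - A) * h σ ∧ f σ • (1 : 𝔸) - Q = h σ * (σ • (1 : 𝔸) - A)

namespace Calc

variable {A : 𝔸} {O : Set ℂ} {f f' : ℂ → ℂ} {Q Q' : 𝔸}

theorem const (c : ℂ) : Calc A O (fun _ => c) (c • 1) :=
  ⟨differentiableOn_const _, by simp, fun _ => 0, differentiableOn_const _, by simp⟩

theorem id : Calc A O (fun σ => σ) A :=
  ⟨differentiableOn_id, rfl, fun _ => 1, differentiableOn_const _, by simp⟩

theorem add (h : Calc A O f Q) (h' : Calc A O f' Q') :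
    Calc A O (fun σ => f σ + f' σ) (Q + Q') := by
  obtain ⟨h1, h2, k, hk, hk'⟩ := h
  obtain ⟨h1', h2', l, hl, hl'⟩ := h'
  refine ⟨h1.add h1', by rw [mul_add, add_mul, h2, h2'], fun σ => k σ + l σ, hk.add hl,
    fun σ hσ => ⟨?_, ?_⟩⟩
  · rw [mul_add, ← (hk' σ hσ).1, ← (hl' σ hσ).1, add_smul]; abel
  · rw [add_mul, ← (hk' σ hσ).2, ← (hl' σ hσ).2, add_smul]; abel

theorem mul (h : Calc A O f Q) (h' : Calc A O f' Q') :
    Calc A O (fun σ => f σ * f' σ) (Q * Q') := by
  obtain ⟨h1, h2, k, hk, hk'⟩ := h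
  obtain ⟨h1', h2', l, hl, hl'⟩ := h'
  refine ⟨h1.mul h1', by rw [← mul_assoc, h2, mul_assoc, h2', mul_assoc],
    fun σ => f' σ • k σ + Q * l σ, (h1'.smul hk).add (hl.const_mul _), fun σ hσ => ⟨?_, ?_⟩⟩
  · have : (σ • (1 : 𝔸) - A) * Q = Q * (σ • (1 : 𝔸) - A) := by
      simp [mul_sub, sub_mul, h2]
    rw [mul_add, mul_smul_comm, ← mul_assoc, this, mul_assoc, ← (hk' σ hσ).1, ← (hl' σ hσ).1]
    simp [smul_sub, mul_sub, smul_smul, mul_comm]
  · rw [add_mul, smul_mul_assoc, mul_assoc, ← (hk' σ hσ).2, ← (hl' σ hσ).2]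
    simp [smul_sub, mul_sub, smul_smul, mul_comm]

theorem congr (h : Calc A O f Q) (hf : ∀ σ ∈ O, f' σ = f σ) (hQ : Q' = Q) : Calc A O f' Q' := by
  obtain ⟨h1, h2, k, hk, hk'⟩ := h
  subst hQ
  exact ⟨h1.congr hf, h2, k, hk, fun σ hσ => by rw [hf σ hσ]; exact hk' σ hσ⟩

theorem mono (h : Calc A O f Q) {O' : Set ℂ} (hO : O' ⊆ O) : Calc A O' f Q := by
  obtain ⟨h1, h2, k, hk, hk'⟩ := h
  exact ⟨h1.mono hO, h2, k, hk.mono hO, fun σ hσ => hk' σ (hO hσ)⟩

theorem smul (h : Calc A O f Q) (c : ℂ) : Calc A O (fun σ => c * f σ) (c • Q) :=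
  ((const c).mul h).congr (fun _ _ => rfl) (by simp)

theorem pow (h : Calc A O f Q) (k : ℕ) : Calc A O (fun σ => f σ ^ k) (Q ^ k) := by
  induction k with
  | zero => exact (const 1).congr (by simp) (by simp)
  | succ k ih => exact (ih.mul h).congr (fun _ _ => pow_succ _ _) (pow_succ _ _)

theorem sum {ι : Type*} (s : Finset ι) {f : ι → ℂ → ℂ} {Q : ι → 𝔸}
    (h : ∀ i ∈ s, Calc A O (f i) (Q i)) : Calc A O (fun σ => ∑ i ∈ s, f i σ) (∑ i ∈ s, Q i) := by
  classical
  induction s using Finset.induction_on with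
  | empty => exact (const 0).congr (by simp) (by simp)
  | insert a s ha ih =>
    exact ((h a (Finset.mem_insert_self _ _)).add
      (ih fun i hi => h i (Finset.mem_insert_of_mem hi))).congr
      (fun _ _ => Finset.sum_insert ha) (Finset.sum_insert ha)

theorem poly (p : ℂ[X]) : Calc A O (fun σ => p.eval σ) (aeval A p) := by
  induction p using Polynomial.induction_on' with
  | add p q hp hq => exact (hp.add hq).congr (by simp) (by simp)
  | monomial n a =>
    exact ((Calc.id.pow n).smul a).congr (by simp) (by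
      simp [aeval_monomial, Algebra.smul_def])

theorem mul_zero' (h : Calc A O f 0) (hf' : DifferentiableOn ℂ f' O) :
    Calc A O (fun σ => f σ * f' σ) 0 := by
  obtain ⟨h1, -, k, hk, hk'⟩ := h
  refine ⟨h1.mul hf', by simp, fun σ => f' σ • k σ, hf'.smul hk, fun σ hσ => ⟨?_, ?_⟩⟩
  · rw [mul_smul_comm, ← (hk' σ hσ).1]; simp [smul_smul, mul_comm]
  · rw [smul_mul_assoc, ← (hk' σ hσ).2]; simp [smul_smul, mul_comm]

theorem translate (h : Calc A O f Q) (z : ℂ) :
    Calc (A - z • 1) ((fun σ => σ + z) ⁻¹' O) (fun σ => f (σ + z)) Q := by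
  obtain ⟨h1, h2, k, hk, hk'⟩ := h
  refine ⟨h1.comp (by fun_prop) (mapsTo_preimage _ _), by simp [mul_sub, sub_mul, h2],
    fun σ => k (σ + z), hk.comp (by fun_prop) (mapsTo_preimage _ _), fun σ hσ => ?_⟩
  have : σ • (1 : 𝔸) - (A - z • 1) = (σ + z) • (1 : 𝔸) - A := by rw [add_smul]; abel
  rw [this]
  exact hk' _ hσ

end Calc

theorem exists_div_prod {O : Set ℂ} (hO : IsOpen O) (s : Multiset ℂ) :
    ∀ g : ℂ → ℂ, DifferentiableOn ℂ g O → (∀ μ ∈ O, (s.count μ : ℕ∞) ≤ analyticOrderAt g μ) →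
      ∃ h, DifferentiableOn ℂ h O ∧ ∀ σ ∈ O, g σ = (s.map (fun μ => σ - μ)).prod * h σ := by
  induction s using Multiset.induction_on with
  | empty => exact fun g hg _ => ⟨g, hg, by simp⟩
  | cons μ s ih =>
    intro g hg hs
    obtain ⟨g1, hg1, e1⟩ : ∃ g1, DifferentiableOn ℂ g1 O ∧ ∀ σ ∈ O, g σ = (σ - μ) * g1 σ := by
      by_cases hμ : μ ∈ O
      · have h0 : g μ = 0 := by
          refine apply_eq_zero_of_analyticOrderAt_ne_zero fun h => ?_
          have := hs μ hμ
          rw [h] at this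
          simp at this
        refine ⟨dslope g μ, (differentiableOn_dslope (hO.mem_nhds hμ)).2 hg, fun σ _ => ?_⟩
        have := sub_smul_dslope g μ σ
        rw [h0, sub_zero, smul_eq_mul] at this
        exact this.symm
      · have hne : ∀ σ ∈ O, σ - μ ≠ 0 := fun σ hσ h => hμ (sub_eq_zero.1 h ▸ hσ)
        refine ⟨fun σ => g σ / (σ - μ), hg.div (by fun_prop) hne, fun σ hσ => ?_⟩
        have := hne σ hσ
        field_simp
    obtain ⟨h, hh, e2⟩ := ih g1 hg1 (fun ν hν => by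
      have h1 := hs ν hν
      have h2 : analyticOrderAt g ν = analyticOrderAt (fun σ => σ - μ) ν + analyticOrderAt g1 ν := by
        rw [← analyticOrderAt_mul (by fun_prop) (hg1.analyticAt (hO.mem_nhds hν))]
        refine analyticOrderAt_congr ?_
        filter_upwards [hO.mem_nhds hν] with σ hσ using e1 σ hσ
      rw [h2] at h1
      rcases eq_or_ne ν μ with rfl | hne
      · rw [analyticOrderAt_id_sub_const_self, Multiset.count_cons_self, Nat.cast_add, add_comm,
          Nat.cast_one] at h1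
        exact (ENat.add_le_add_iff_left (by simp)).1 h1
      · rwa [analyticOrderAt_id_sub_const_of_ne hne, zero_add, Multiset.count_cons_of_ne hne] at h1)
    refine ⟨h, hh, fun σ hσ => ?_⟩
    rw [e1 σ hσ, e2 σ hσ, Multiset.map_cons, Multiset.prod_cons, mul_assoc]

theorem Calc.of_agree {A : 𝔸} {O : Set ℂ} (hO : IsOpen O) {f : ℂ → ℂ}
    (hf : DifferentiableOn ℂ f O) (p χ : ℂ[X]) (hχ : χ.Monic) (hA : aeval A χ = 0) {n : ℕ}
    (hn : χ.natDegree ≤ n) (hag : ∀ μ, χ.IsRoot μ → ∀ j < n,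
      iteratedDeriv j (fun z => p.eval z) μ = iteratedDeriv j f μ) : Calc A O f (aeval A p) := by
  have hp : Differentiable ℂ fun z => p.eval z := p.differentiable
  have hg : DifferentiableOn ℂ (fun z => f z - p.eval z) O := hf.sub hp.differentiableOn
  obtain ⟨h, hh, e⟩ := exists_div_prod hO χ.roots _ hg (fun μ hμ => by
    by_cases hr : χ.IsRoot μ
    · have h1 : χ.roots.count μ ≤ n :=
        (Multiset.count_le_card _ _).trans ((card_roots' χ).trans hn)
      refine le_trans (by exact_mod_cast h1) ((natCast_le_analyticOrderAt_iff_iteratedDeriv_eq_zero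
        (n := n) (hg.analyticAt (hO.mem_nhds hμ))).2 fun j hj => ?_)
      rw [iteratedDeriv_fun_sub (hf.analyticAt (hO.mem_nhds hμ)).contDiffAt
        (hp.analyticAt μ).contDiffAt, hag μ hr j hj, sub_self]
    · rw [Multiset.count_eq_zero_of_notMem fun h => hr (isRoot_of_mem_roots h)]
      simp)
  have e2 : ∀ σ, χ.eval σ = (χ.roots.map (fun μ => σ - μ)).prod := fun σ => by
    conv_lhs => rw [(IsAlgClosed.splits χ).eq_prod_roots_of_monic hχ]
    simp [eval_multiset_prod]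
  have h1 : Calc A O (fun σ => χ.eval σ) 0 := (Calc.poly χ).congr (fun _ _ => rfl) hA.symm
  refine ((Calc.poly p).add (h1.mul_zero' hh)).congr (fun σ hσ => ?_) (add_zero _).symm
  rw [e2, ← e σ hσ]; ring

end Crest.Agent.R132
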