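import Crest.Agent.R132.Key
import Crest.Agent.R132.Calc

/-! Banach-algebra valued contour identities for the boundary density. -/

set_option autoImplicit false

open Set Filter Metric Topology Complex Function
open scoped ComplexConjugate Real
open Crest.Agent.Riemann

namespace Crest.Agent.R132

theorem inverse_eq_of {R : Type*} [MonoidWithZero R] {X Y : R} (h1 : X * Y = 1) (h2 : Y * X = 1) :
    Ring.inverse X = Y := Ring.inverse_unit ⟨X, Y, h1, h2⟩

variable {𝔸 : Type*} [NormedRing 𝔸] [NormedAlgebra ℂ 𝔸]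

theorem inverse_smul' {X : 𝔸} (hX : IsUnit X) {c : ℂ} (hc : c ≠ 0) :
    Ring.inverse (c • X) = c⁻¹ • Ring.inverse X := by
  refine inverse_eq_of ?_ ?_
  · rw [smul_mul_smul_comm, mul_inv_cancel₀ hc, Ring.mul_inverse_cancel _ hX, one_smul]
  · rw [smul_mul_smul_comm, inv_mul_cancel₀ hc, Ring.inverse_mul_cancel _ hX, one_smul]

theorem isUnit_smul' {X : 𝔸} (hX : IsUnit X) {c : ℂ} (hc : c ≠ 0) : IsUnit (c • X) := by
  rw [Algebra.smul_def]
  exact ((IsUnit.mk0 c hc).map (algebraMap ℂ 𝔸)).mul hX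

/-- The derivative of the defining identity of the functional calculus. -/
theorem calc_deriv {B Q : 𝔸} {O : Set ℂ} (hO : IsOpen O) {f : ℂ → ℂ} (hf : DifferentiableOn ℂ f O)
    {h : ℂ → 𝔸} (hh : DifferentiableOn ℂ h O) (e : ∀ σ ∈ O,
      f σ • (1 : 𝔸) - Q = (σ • (1 : 𝔸) - B) * h σ ∧ f σ • (1 : 𝔸) - Q = h σ * (σ • (1 : 𝔸) - B))
    {σ : ℂ} (hσ : σ ∈ O) :
    deriv f σ • (1 : 𝔸) = h σ + (σ • (1 : 𝔸) - B) * deriv h σ ∧
      deriv f σ • (1 : 𝔸) = deriv h σ * (σ • (1 : 𝔸) - B) + h σ := by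
  have h1 : HasDerivAt (fun σ => f σ • (1 : 𝔸) - Q) (deriv f σ • (1 : 𝔸)) σ :=
    ((hf.differentiableAt (hO.mem_nhds hσ)).hasDerivAt.smul_const _).sub_const _
  have h2 : HasDerivAt (fun σ : ℂ => σ • (1 : 𝔸) - B) 1 σ := by
    simpa using ((hasDerivAt_id σ).smul_const (1 : 𝔸)).sub_const B
  have h3 := (hh.differentiableAt (hO.mem_nhds hσ)).hasDerivAt
  constructor
  · have h4 := (h2.mul h3).congr_of_eventuallyEq (f₁ := fun σ => f σ • (1 : 𝔸) - Q)
      (by filter_upwards [hO.mem_nhds hσ] with z hz using (e z hz).1)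
    simpa using h1.unique h4
  · have h4 := (h3.mul h2).congr_of_eventuallyEq (f₁ := fun σ => f σ • (1 : 𝔸) - Q)
      (by filter_upwards [hO.mem_nhds hσ] with z hz using (e z hz).2)
    simpa using h1.unique h4

variable [CompleteSpace 𝔸]

/-- The resolvent integrates to the identity along the exterior curve. -/
theorem avg_resolvent {Ω : Set ℂ} (hΩ₁ : IsOpen Ω) (hΩ₂ : Bornology.IsBounded Ω)
    (hne : Ω.Nonempty) {G : ℂ → ℂ} {r : ℝ} (hr₂ : r < 1)
    (hG₁ : DifferentiableOn ℂ G {t : ℂ | r < ‖t‖}) (hG₂ : Set.InjOn G {t : ℂ | r < ‖t‖})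
    (hG₃ : G '' {t : ℂ | 1 < ‖t‖} = (closure Ω)ᶜ) (hG₄ : ∀ t : ℂ, 1 ≤ ‖t‖ → G t ∉ Ω)
    {B : 𝔸} (hB : ∀ σ, σ ∉ Ω → IsUnit (σ • (1 : 𝔸) - B)) :
    avg (fun θ => (circleMap 0 1 θ * deriv G (circleMap 0 1 θ)) •
      Ring.inverse (G (circleMap 0 1 θ) • (1 : 𝔸) - B)) = 1 := by
  obtain ⟨z₀, hz₀⟩ := hne
  obtain ⟨δ, hδ, hδΩ⟩ := Metric.isOpen_iff.1 hΩ₁ z₀ hz₀
  have hopen : IsOpen {t : ℂ | r < ‖t‖} := isOpen_lt continuous_const continuous_norm
  have hinv : ∀ u : ℂ, u ≠ 0 → ‖u‖ ≤ 1 → 1 ≤ ‖u⁻¹‖ := fun u h0 h1 => by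
    rw [norm_inv]; exact (one_le_inv₀ (norm_pos_iff.2 h0)).2 h1
  have hlow : ∀ t : ℂ, 1 ≤ ‖t‖ → δ ≤ ‖G t - z₀‖ := fun t ht => by
    by_contra h
    exact hG₄ t ht (hδΩ (by rw [mem_ball, dist_eq_norm]; exact not_le.1 h))
  have hne0 : ∀ t : ℂ, 1 ≤ ‖t‖ → G t - z₀ ≠ 0 := fun t ht =>
    norm_pos_iff.1 (hδ.trans_le (hlow t ht))
  set ψ₀ : ℂ → ℂ := fun u => (G u⁻¹ - z₀)⁻¹ with hψ₀
  have han₀ : ∀ u : ℂ, u ≠ 0 → ‖u‖ ≤ 1 → AnalyticAt ℂ ψ₀ u := fun u h0 h1 => by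
    have h2 : AnalyticAt ℂ G u⁻¹ :=
      hG₁.analyticAt (hopen.mem_nhds (hr₂.trans_le (hinv u h0 h1)))
    exact ((h2.comp (analyticAt_inv h0)).sub analyticAt_const).inv (hne0 _ (hinv u h0 h1))
  set ψ : ℂ → ℂ := update ψ₀ 0 (limUnder (𝓝[≠] 0) ψ₀) with hψ
  have hψd : DifferentiableOn ℂ ψ (ball 0 1) := by
    refine differentiableOn_update_limUnder_of_bddAbove (ball_mem_nhds 0 one_pos)
      (fun u hu => (han₀ u hu.2 (mem_ball_zero_iff.1 hu.1).le).differentiableAt.differentiableWithinAt)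
      ⟨δ⁻¹, ?_⟩
    rintro _ ⟨u, hu, rfl⟩
    simp only [comp_apply, hψ₀, norm_inv]
    exact inv_anti₀ hδ (hlow _ (hinv u hu.2 (mem_ball_zero_iff.1 hu.1).le))
  have hψe : ∀ u : ℂ, u ≠ 0 → ψ =ᶠ[𝓝 u] ψ₀ := fun u h0 => by
    filter_upwards [isOpen_ne.mem_nhds h0] with w hw using update_of_ne hw _ _
  have hψv : ∀ u : ℂ, u ≠ 0 → ψ u = (G u⁻¹ - z₀)⁻¹ := fun u h0 => (hψe u h0).self_of_nhds
  have han : ∀ u ∈ closedBall (0 : ℂ) 1, AnalyticAt ℂ ψ u := fun u hu => by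
    rcases eq_or_ne u 0 with rfl | h0
    · exact hψd.analyticAt (ball_mem_nhds 0 one_pos)
    · exact (han₀ u h0 (mem_closedBall_zero_iff.1 hu)).congr (hψe u h0).symm
  have hψc : DifferentiableOn ℂ ψ (closedBall 0 1) :=
    fun u hu => (han u hu).differentiableAt.differentiableWithinAt
  have hψn : ∀ u ∈ closedBall (0 : ℂ) 1, u ≠ 0 → ψ u ≠ 0 := fun u hu h0 => by
    rw [hψv u h0]; exact inv_ne_zero (hne0 _ (hinv u h0 (mem_closedBall_zero_iff.1 hu)))
  have hψ0 : ψ 0 = 0 := by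
    by_contra h
    have hn : ∀ u ∈ closedBall (0 : ℂ) 1, ψ u ≠ 0 := fun u hu => by
      rcases eq_or_ne u 0 with rfl | h0
      exacts [h, hψn u hu h0]
    obtain ⟨C, hC⟩ := (isCompact_closedBall (0 : ℂ) 1).exists_bound_of_continuousOn
      (hψc.continuousOn.inv₀ hn)
    have hb : Bornology.IsBounded (closure Ω)ᶜ := by
      rw [← hG₃]
      refine (isBounded_closedBall (x := z₀) (r := C)).subset ?_
      rintro _ ⟨t, ht, rfl⟩
      have ht' : 1 < ‖t‖ := ht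
      have ht0 : t ≠ 0 := norm_pos_iff.1 (one_pos.trans ht')
      have := hC t⁻¹ (by rw [mem_closedBall_zero_iff, norm_inv]; exact inv_le_one_of_one_le₀ ht'.le)
      simpa [hψv _ (inv_ne_zero ht0), dist_eq_norm] using this
    have := hΩ₂.closure.union hb
    rw [union_compl_self] at this
    exact NormedSpace.unbounded_univ ℂ ℂ this
  have hinj : InjOn ψ (ball 0 1) := by
    intro u hu w hw h
    rcases eq_or_ne u 0 with rfl | hu0 <;> rcases eq_or_ne w 0 with rfl | hw0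
    · rfl
    · exact absurd (h.symm.trans hψ0) (hψn w (ball_subset_closedBall hw) hw0)
    · exact absurd (h.trans hψ0) (hψn u (ball_subset_closedBall hu) hu0)
    · rw [hψv u hu0, hψv w hw0, inv_inj, sub_left_inj] at h
      exact inv_inj.1 (hG₂ (hr₂.trans_le (hinv u hu0 (mem_ball_zero_iff.1 hu).le))
        (hr₂.trans_le (hinv w hw0 (mem_ball_zero_iff.1 hw).le)) h)
  have hd0 : deriv ψ 0 ≠ 0 := deriv_ne_zero_of_injOn isOpen_ball hψd hinj (mem_ball_self one_pos)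
  have hχ : ∀ u, ψ u = u * dslope ψ 0 u := fun u => by
    have := sub_smul_dslope ψ 0 u
    rw [hψ0, sub_zero, sub_zero, smul_eq_mul] at this
    exact this.symm
  have hχn : ∀ u ∈ closedBall (0 : ℂ) 1, dslope ψ 0 u ≠ 0 := fun u hu => by
    rcases eq_or_ne u 0 with rfl | h0
    · rwa [dslope_same]
    · exact fun h => hψn u hu h0 (by rw [hχ, h, mul_zero])
  have hfac : ∀ u ∈ closedBall (0 : ℂ) 1, u ≠ 0 →
      1 - ψ u • (B - z₀ • 1) = ψ u • (G u⁻¹ • (1 : 𝔸) - B) := fun u hu h0 => by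
    have h1 : ψ u * (G u⁻¹ - z₀) = 1 := by
      rw [hψv u h0, inv_mul_cancel₀ (hne0 _ (hinv u h0 (mem_closedBall_zero_iff.1 hu)))]
    match_scalars
    · linear_combination -h1
    · ring
  have hunit : ∀ u ∈ closedBall (0 : ℂ) 1, IsUnit (1 - ψ u • (B - z₀ • 1)) := fun u hu => by
    rcases eq_or_ne u 0 with rfl | h0
    · simp [hψ0]
    · rw [hfac u hu h0]
      exact isUnit_smul' (hB _ (hG₄ _ (hinv u h0 (mem_closedBall_zero_iff.1 hu)))) (hψn u hu h0)
  set R : ℂ → 𝔸 := fun u => (deriv ψ u / dslope ψ 0 u) • Ring.inverse (1 - ψ u • (B - z₀ • 1))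
    with hR
  have hRd : DifferentiableOn ℂ R (closedBall 0 1) := by
    refine DifferentiableOn.smul (DifferentiableOn.div
      (fun u hu => (han u hu).deriv.differentiableAt.differentiableWithinAt)
      ((differentiableOn_dslope (closedBall_mem_nhds 0 one_pos)).2 hψc) hχn)
      (DifferentiableOn.inverse ((hψc.smul_const _).const_sub 1) hunit)
  have hR0 : R 0 = 1 := by simp [hR, hψ0, hd0]
  refine Eq.trans ?_ hR0
  rw [← mean_value one_pos hRd subset_rfl, ← circleAverage_eq_avg R,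
    ← Real.circleAverage_zero_one_congr_inv, circleAverage_eq_avg]
  congr 1
  ext θ
  set t := circleMap 0 1 θ with ht
  have ht1 : ‖t‖ = 1 := norm_cm zero_le_one θ
  have ht0 : t ≠ 0 := norm_pos_iff.1 (by rw [ht1]; exact one_pos)
  have hu0 : t⁻¹ ≠ 0 := inv_ne_zero ht0
  have hu : t⁻¹ ∈ closedBall (0 : ℂ) 1 := by simp [ht1]
  have hG' := (hG₁.differentiableAt (hopen.mem_nhds (show r < ‖t‖ by rwa [ht1]))).hasDerivAt
  have hne1 := hne0 t ht1.ge
  have hder : HasDerivAt ψ₀ (-(deriv G t * -(t⁻¹ ^ 2)⁻¹) / (G t - z₀) ^ 2) t⁻¹ := by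
    have h1 := ((HasDerivAt.comp_of_eq t⁻¹ hG' (hasDerivAt_inv hu0) (inv_inv t).symm).sub_const
      z₀).fun_inv (by simpa using hne1)
    simpa [hψ₀, comp_def] using h1
  have hψt := hψv _ hu0
  have hχt := hχ t⁻¹
  rw [inv_inv] at hψt
  simp only [hR]
  rw [hfac _ hu hu0, inv_inv, inverse_smul' (hB _ (hG₄ t ht1.ge)) (hψn _ hu hu0), smul_smul,
    (hψe _ hu0).deriv_eq, hder.deriv]
  congr 1
  have h3 : dslope ψ 0 t⁻¹ = t * (G t - z₀)⁻¹ := by
    rw [← hψt, hχt]; field_simp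
  rw [h3, hψt]
  field_simp

/-- The representation formula in a Banach algebra. -/
theorem avg_density {O : Set ℂ} (hO : IsOpen O) (hOc : Convex ℝ O) {B T T' : 𝔸} {f : ℂ → ℂ}
    (hf : DifferentiableOn ℂ f O) {h : ℂ → 𝔸} (hh : DifferentiableOn ℂ h O) (e : ∀ σ ∈ O,
      f σ • (1 : 𝔸) - T = (σ • (1 : 𝔸) - B) * h σ ∧ f σ • (1 : 𝔸) - T = h σ * (σ • (1 : 𝔸) - B))
    (hu : ∀ σ ∈ O, IsUnit (h σ)) (hu' : ∀ σ ∈ O, IsUnit (1 - f σ • T'))
    {G : ℂ → ℂ} (hG : ∀ t ∈ sphere (0 : ℂ) 1, AnalyticAt ℂ G t)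
    (hGO : ∀ t ∈ sphere (0 : ℂ) 1, G t ∈ O) (hGf : ∀ t ∈ sphere (0 : ℂ) 1, f (G t) ≠ 0)
    (hGB : ∀ t ∈ sphere (0 : ℂ) 1, IsUnit (G t • (1 : 𝔸) - B))
    (h1 : avg (fun θ => (circleMap 0 1 θ * deriv G (circleMap 0 1 θ)) •
      Ring.inverse (G (circleMap 0 1 θ) • (1 : 𝔸) - B)) = 1)
    {v : ℂ → ℂ} {Q : 𝔸} (hQ : Calc B O v Q) :
    avg (fun θ => v (G (circleMap 0 1 θ)) •
      ((circleMap 0 1 θ * deriv G (circleMap 0 1 θ) * deriv f (G (circleMap 0 1 θ))
        / f (G (circleMap 0 1 θ))) • (Ring.inverse (1 - (f (G (circleMap 0 1 θ)))⁻¹ • T)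
          + Ring.inverse (1 - f (G (circleMap 0 1 θ)) • T') - 1))) = Q := by
  obtain ⟨hv, -, k, hk, hk'⟩ := hQ
  set Hol : ℂ → 𝔸 := fun σ => k σ + v σ • (Ring.inverse (h σ) * deriv h σ
    + deriv f σ • (T' * Ring.inverse (1 - f σ • T'))) with hHol
  have hHd : DifferentiableOn ℂ Hol O :=
    hk.add (hv.smul (((hh.inverse hu).mul (hh.deriv hO)).add ((hf.deriv hO).smul
      ((((hf.smul_const T').const_sub 1).inverse hu').const_mul T'))))
  have h2 := circleAverage_curve hO hOc hHd one_pos (fun t ht => (hG t ht).differentiableAt) hGO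
  rw [circleAverage_eq_avg] at h2
  have cG : Continuous fun θ => G (circleMap 0 1 θ) :=
    cont_cm zero_le_one fun t ht => (hG t ht).continuousAt.continuousWithinAt
  have cG' : Continuous fun θ => circleMap 0 1 θ * deriv G (circleMap 0 1 θ) :=
    (continuous_circleMap 0 1).mul
      (cont_cm zero_le_one fun t ht => (hG t ht).deriv.continuousAt.continuousWithinAt)
  have hs := circleMap_mem_sphere (0 : ℂ) zero_le_one
  have c1 : Continuous fun θ => (circleMap 0 1 θ * deriv G (circleMap 0 1 θ)) •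
      Ring.inverse (G (circleMap 0 1 θ) • (1 : 𝔸) - B) :=
    cG'.smul ((differentiableOn_inverse (𝕜 := ℂ)).continuousOn.comp_continuous
      ((cG.smul continuous_const).sub continuous_const) fun θ => hGB _ (hs θ))
  have c2 : Continuous fun θ => (circleMap 0 1 θ * deriv G (circleMap 0 1 θ)) •
      Hol (G (circleMap 0 1 θ)) :=
    cG'.smul (hHd.continuousOn.comp_continuous cG fun θ => hGO _ (hs θ))
  have h3 := avg_clm ((ContinuousLinearMap.mul ℂ 𝔸 Q).restrictScalars ℝ) c1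
  simp only [ContinuousLinearMap.coe_restrictScalars', ContinuousLinearMap.mul_apply', h1,
    mul_one] at h3
  rw [← h3, ← add_zero (avg fun θ => Q * _), ← h2, ← avg_add (continuous_const.fun_mul c1) c2]
  congr 1
  ext θ
  generalize circleMap 0 1 θ * deriv G (circleMap 0 1 θ) = a
  have hσ := hGO _ (hs θ)
  have hζ := hGf _ (hs θ)
  have hB := hGB _ (hs θ)
  generalize G (circleMap 0 1 θ) = σ at hσ hζ hB
  have hX : IsUnit (f σ • (1 : 𝔸) - T) := by rw [(e σ hσ).1]; exact hB.mul (hu σ hσ)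
  have e1 : Ring.inverse (1 - (f σ)⁻¹ • T) = f σ • Ring.inverse (f σ • (1 : 𝔸) - T) := by
    have := inverse_smul' hX (inv_ne_zero hζ)
    rwa [inv_inv, smul_sub, smul_smul, inv_mul_cancel₀ hζ, one_smul] at this
  have e2 : deriv f σ • Ring.inverse (f σ • (1 : 𝔸) - T)
      = Ring.inverse (σ • (1 : 𝔸) - B) + Ring.inverse (h σ) * deriv h σ := by
    have a1 : Ring.inverse (f σ • (1 : 𝔸) - T) * h σ = Ring.inverse (σ • (1 : 𝔸) - B) := by
      rw [Ring.inverse_mul_eq_iff_eq_mul _ _ _ hX, (e σ hσ).2, mul_assoc,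
        Ring.mul_inverse_cancel _ hB, mul_one]
    have a2 : Ring.inverse (f σ • (1 : 𝔸) - T) * (σ • (1 : 𝔸) - B) = Ring.inverse (h σ) := by
      rw [Ring.inverse_mul_eq_iff_eq_mul _ _ _ hX, (e σ hσ).1, mul_assoc,
        Ring.mul_inverse_cancel _ (hu σ hσ), mul_one]
    rw [← a1, ← a2, mul_assoc, ← mul_add, ← (calc_deriv hO hf hh e hσ).1, mul_smul_comm, mul_one]
  have e3 : Ring.inverse (1 - f σ • T') - 1 = f σ • (T' * Ring.inverse (1 - f σ • T')) := by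
    have := Ring.mul_inverse_cancel _ (hu' σ hσ)
    rw [sub_mul, one_mul, smul_mul_assoc] at this
    exact sub_eq_iff_eq_add'.2 (sub_eq_iff_eq_add.1 this)
  have e4 : v σ • Ring.inverse (σ • (1 : 𝔸) - B) = Q * Ring.inverse (σ • (1 : 𝔸) - B) + k σ := by
    have := congrArg (· * Ring.inverse (σ • (1 : 𝔸) - B)) (hk' σ hσ).2
    simp only [mul_assoc, Ring.mul_inverse_cancel _ hB, mul_one, sub_mul, smul_mul_assoc,
      one_mul] at this
    rw [← this]; abel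
  have e5 : (a * deriv f σ / f σ) • (Ring.inverse (1 - (f σ)⁻¹ • T)
      + Ring.inverse (1 - f σ • T') - 1) = a • (Ring.inverse (σ • (1 : 𝔸) - B)
        + (Ring.inverse (h σ) * deriv h σ + deriv f σ • (T' * Ring.inverse (1 - f σ • T')))) := by
    rw [add_sub_assoc, e1, e3, ← smul_add, smul_smul, div_mul_cancel₀ _ hζ, mul_smul, smul_add,
      e2, add_assoc]
  rw [e5, smul_comm, smul_add, e4, mul_smul_comm, ← smul_add, add_assoc]

theorem re_deriv_nonneg {F : ℝ → ℂ} {F' : ℂ} (hF : HasDerivAt F F' 0)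
    (h : ∀ᶠ s in 𝓝[>] (0 : ℝ), ‖F 0‖ ≤ ‖F s‖) : 0 ≤ (F' * conj (F 0)).re := by
  have h1 := hF.norm_sq
  rw [Complex.inner] at h1
  have h2 : 0 ≤ 2 * (F' * conj (F 0)).re := by
    refine ge_of_tendsto h1.tendsto_slope_zero_right ?_
    filter_upwards [h, self_mem_nhdsWithin] with s hs hs0
    rw [smul_eq_mul, zero_add]
    exact mul_nonneg (inv_nonneg.2 (le_of_lt hs0))
      (sub_nonneg.2 (pow_le_pow_left₀ (norm_nonneg _) hs 2))
  linarith

/-- The boundary weight is real and nonnegative. -/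
theorem weight_nonneg {h : ℂ → ℂ} {h' t : ℂ} (hd : HasDerivAt h h' t) (ht : ‖t‖ = 1)
    (h1 : ∀ w : ℂ, ‖w‖ = 1 → ‖h w‖ = 1) (h2 : ∀ᶠ w in 𝓝 t, 1 < ‖w‖ → 1 ≤ ‖h w‖) :
    0 ≤ (t * h' / h t).re ∧ (t * h' / h t).im = 0 := by
  have e : t * h' / h t = h' * t * conj (h t) := by
    rw [div_eq_mul_inv, Complex.inv_def, normSq_eq_norm_sq, h1 t ht]; simp [mul_comm]
  have tang : ∀ c : ℝ, 0 ≤ (h' * (t * (c * I)) * conj (h t)).re := by
    intro c
    have a1 : HasDerivAt (fun s : ℂ => t * cexp (s * (c * I))) (t * (c * I)) (0 : ℝ) := by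
      simpa using (((hasDerivAt_id ((0 : ℝ) : ℂ)).mul_const (c * I)).cexp).const_mul t
    have a2 := (HasDerivAt.comp_of_eq ((0 : ℝ) : ℂ) hd a1 (by simp)).comp_ofReal
    have := re_deriv_nonneg a2 (Eventually.of_forall fun s => by
      have hn : ∀ s : ℝ, ‖t * cexp (s * (c * I))‖ = 1 := fun s => by
        rw [norm_mul, ht, ← mul_assoc, ← ofReal_mul, norm_exp_ofReal_mul_I, one_mul]
      simp only [comp_apply]
      rw [h1 _ (hn _), h1 _ (hn _)])
    simpa using this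
  have rad : 0 ≤ (h' * t * conj (h t)).re := by
    have a1 : HasDerivAt (fun s : ℂ => t * (1 + s)) t (0 : ℝ) := by
      simpa using ((hasDerivAt_id ((0 : ℝ) : ℂ)).const_add 1).const_mul t
    have a2 := (HasDerivAt.comp_of_eq ((0 : ℝ) : ℂ) hd a1 (by simp)).comp_ofReal
    have a3 : Tendsto (fun s : ℝ => t * (1 + s)) (𝓝[>] 0) (𝓝 t) := by
      have : Continuous fun s : ℝ => t * (1 + s) := by fun_prop
      simpa using (this.tendsto 0).mono_left (nhdsWithin_le_nhds (s := Ioi 0))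
    have := re_deriv_nonneg a2 (by
      filter_upwards [a3.eventually h2, self_mem_nhdsWithin] with s hs hs0
      simp only [comp_apply, ofReal_zero, add_zero, mul_one, h1 t ht]
      refine hs ?_
      have hs0' : 0 < s := hs0
      rw [norm_mul, ht, one_mul, ← ofReal_one, ← ofReal_add, Complex.norm_real,
        Real.norm_of_nonneg (by linarith)]
      linarith)
    simpa using this
  rw [e]
  refine ⟨rad, ?_⟩
  have b1 := tang 1
  have b2 := tang (-1)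
  have b3 : ∀ c : ℝ, (h' * (t * (c * I)) * conj (h t)).re = -c * (h' * t * conj (h t)).im := by
    intro c
    simp only [mul_re, mul_im, I_re, I_im, ofReal_re, ofReal_im]
    ring
  rw [b3] at b1 b2
  linarith

end Crest.Agent.R132
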