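import Mathlib

/-! A finite-dimensional form of Paulsen's similarity theorem, by duality. -/

set_option autoImplicit false

open Set Filter Metric Topology Complex Function Matrix
open scoped ComplexConjugate ComplexOrder

namespace Crest.Agent.R132

/-- Euclidean norm of a coordinate vector. -/
noncomputable def en {ι : Type*} [Fintype ι] (w : ι → ℂ) : ℝ :=
  ‖(WithLp.toLp 2 w : EuclideanSpace ℂ ι)‖

section en
variable {ι : Type*} [Fintype ι]

theorem en_sq (w : ι → ℂ) : en w ^ 2 = ∑ i, ‖w i‖ ^ 2 := EuclideanSpace.norm_sq_eq _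

theorem en_nonneg (w : ι → ℂ) : 0 ≤ en w := norm_nonneg _

theorem en_add_le (v w : ι → ℂ) : en (v + w) ≤ en v + en w := by
  simp only [en, WithLp.toLp_add]; exact norm_add_le _ _

theorem en_smul (c : ℂ) (w : ι → ℂ) : en (c • w) = ‖c‖ * en w := by
  simp only [en, WithLp.toLp_smul, norm_smul]

theorem en_zero : en (0 : ι → ℂ) = 0 := by simp [en]

theorem en_elim {κ : Type*} [Fintype κ] (v : ι → ℂ) (w : κ → ℂ) :
    en (Sum.elim v w) ^ 2 = en v ^ 2 + en w ^ 2 := by
  simp [en_sq, Fintype.sum_sum_type]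

theorem en_sq_eq (w : ι → ℂ) : ((en w ^ 2 : ℝ) : ℂ) = w ⬝ᵥ star w := by
  rw [en_sq]
  push_cast
  simp [dotProduct, Complex.mul_conj']

end en

variable {n : Type*} [Fintype n] [DecidableEq n]

/-- Squared Hilbert--Schmidt norm. -/
noncomputable def hs (X : Matrix n n ℂ) : ℝ := ∑ a, ∑ b, ‖X a b‖ ^ 2

omit [DecidableEq n] in
theorem hs_nonneg (X : Matrix n n ℂ) : 0 ≤ hs X := by unfold hs; positivity

omit [DecidableEq n] in
theorem hs_eq_trace (X : Matrix n n ℂ) : hs X = (X * Xᴴ).trace.re := by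
  simp only [hs, trace, diag, mul_apply, conjTranspose_apply, RCLike.star_def, Complex.mul_conj',
    re_sum]
  norm_cast

omit [DecidableEq n] in
theorem continuous_hs : Continuous (hs : Matrix n n ℂ → ℝ) := by
  unfold hs; fun_prop

omit [DecidableEq n] in
theorem sq_le_hs (X : Matrix n n ℂ) (a b : n) : ‖X a b‖ ^ 2 ≤ hs X :=
  (Finset.single_le_sum (f := fun b => ‖X a b‖ ^ 2) (fun _ _ => by positivity)
    (Finset.mem_univ b)).trans (Finset.single_le_sum (f := fun a => ∑ b, ‖X a b‖ ^ 2)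
      (fun _ _ => by positivity) (Finset.mem_univ a))

omit [DecidableEq n] in
theorem tendsto_of_hs {X : ℕ → Matrix n n ℂ} {C ρ : ℝ} (h0 : 0 ≤ ρ) (h1 : ρ < 1)
    (h : ∀ k, hs (X k) ≤ C * ρ ^ k) : Tendsto X atTop (𝓝 0) := by
  refine tendsto_pi_nhds.2 fun a => tendsto_pi_nhds.2 fun b => ?_
  have h2 : Tendsto (fun k => ‖X k a b‖ ^ 2) atTop (𝓝 0) := by
    refine squeeze_zero (fun _ => by positivity) (fun k => (sq_le_hs _ a b).trans (h k)) ?_
    simpa using (tendsto_pow_atTop_nhds_zero_of_lt_one h0 h1).const_mul C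
  have h3 := h2.sqrt
  simp only [norm_nonneg, Real.sqrt_sq, Real.sqrt_zero] at h3
  exact tendsto_zero_iff_norm_tendsto_zero.2 h3

theorem exists_factor {M : Matrix n n ℂ} (h : M.PosSemidef) : ∃ B : Matrix n n ℂ, M = B * Bᴴ := by
  open scoped MatrixOrder in
  exact CStarAlgebra.nonneg_iff_eq_mul_star_self.mp h.nonneg

omit [DecidableEq n] in
theorem isClosed_psd : IsClosed {M : Matrix n n ℂ | M.PosSemidef} := by
  simp only [posSemidef_iff_dotProduct_mulVec, ofPred_and, ofPred_forall]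
  refine IsClosed.inter (isClosed_eq (f := fun M : Matrix n n ℂ => Mᴴ) (by fun_prop) continuous_id)
    (isClosed_iInter fun x => isClosed_le continuous_const ?_)
  simp only [dotProduct, mulVec]
  fun_prop

theorem entry_le_of_psd {M : Matrix n n ℂ} (h : M.PosSemidef) (a b : n) :
    ‖M a b‖ ≤ ((M a a).re + (M b b).re) / 2 := by
  obtain ⟨B, rfl⟩ := exists_factor h
  simp only [mul_apply, conjTranspose_apply, RCLike.star_def, Complex.mul_conj', re_sum]
  norm_cast
  rw [← Finset.sum_add_distrib, Finset.sum_div]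
  refine (norm_sum_le _ _).trans (Finset.sum_le_sum fun k _ => ?_)
  rw [norm_mul, RCLike.norm_conj]
  nlinarith [sq_nonneg (‖B a k‖ - ‖B b k‖)]

theorem isCompact_box (τ : ℝ) : IsCompact {H : Matrix n n ℂ |
    (H - 1).PosSemidef ∧ ((τ : ℂ) • (1 : Matrix n n ℂ) - H).PosSemidef} := by
  have hK : IsCompact (Set.pi univ fun _ : n => Set.pi univ fun _ : n => closedBall (0 : ℂ) τ) :=
    isCompact_univ_pi fun _ => isCompact_univ_pi fun _ => isCompact_closedBall _ _
  refine IsCompact.of_isClosed_subset hK ((isClosed_psd.preimage (f := fun H => H - 1)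
    (by fun_prop)).inter (isClosed_psd.preimage (f := fun H => (τ : ℂ) • 1 - H) (by fun_prop))) ?_
  rintro H ⟨h1, h2⟩ a - b -
  have h3 : H.PosSemidef := by simpa using h1.add PosSemidef.one
  have h4 : ∀ a, (H a a).re ≤ τ := fun a => by
    have := (Complex.le_def.1 (h2.diag_nonneg (i := a))).1
    simpa using this
  rw [mem_closedBall_zero_iff]
  linarith [entry_le_of_psd h3 a b, h4 a, h4 b]

section Stein

variable {T : Matrix n n ℂ} (hT : Tendsto (fun k => T ^ k) atTop (𝓝 0))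
include hT

theorem stein_psd {H : Matrix n n ℂ} (h : (H - Tᴴ * H * T).PosSemidef) : H.PosSemidef := by
  have h1 : ∀ k, (H - (T ^ k)ᴴ * H * T ^ k).PosSemidef := by
    intro k
    induction k with
    | zero => simpa using PosSemidef.zero
    | succ k ih =>
      have := ih.add (h.conjTranspose_mul_mul_same (T ^ k))
      convert this using 1
      simp only [pow_succ', conjTranspose_mul, Matrix.mul_sub, Matrix.sub_mul, Matrix.mul_assoc]
      abel
  have h2 : Tendsto (fun k => H - (T ^ k)ᴴ * H * T ^ k) atTop (𝓝 H) := by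
    have hc : Continuous fun X : Matrix n n ℂ => H - Xᴴ * H * X := by fun_prop
    simpa [Function.comp_def] using (hc.tendsto 0).comp hT
  exact isClosed_psd.mem_of_tendsto h2 (Eventually.of_forall h1)

theorem stein_surj (D : Matrix n n ℂ) : ∃ H : Matrix n n ℂ, H - Tᴴ * H * T = D := by
  let L : Matrix n n ℂ →ₗ[ℂ] Matrix n n ℂ :=
    { toFun := fun H => H - Tᴴ * H * T
      map_add' := fun x y => by simp only [Matrix.mul_add, Matrix.add_mul]; abel
      map_smul' := fun c x => by simp [smul_sub] }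
  have hinj : Injective L := by
    rw [← LinearMap.ker_eq_bot, LinearMap.ker_eq_bot']
    intro H hH
    have h1 : H.PosSemidef := stein_psd hT (by
      rw [show H - Tᴴ * H * T = 0 from hH]; exact PosSemidef.zero)
    have h2 : (-H).PosSemidef := stein_psd hT (by
      rw [show -H - Tᴴ * (-H) * T = 0 from (map_neg L H).trans (by rw [hH, neg_zero])]
      exact PosSemidef.zero)
    open scoped MatrixOrder in
    exact le_antisymm (neg_nonneg.1 h2.nonneg) h1.nonneg
  exact LinearMap.injective_iff_surjective.1 hinj D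

end Stein

theorem douglas {V G : Type*} [AddCommGroup V] [Module ℂ V] [NormedAddCommGroup G]
    [InnerProductSpace ℂ G] [FiniteDimensional ℂ G] (E F : V →ₗ[ℂ] G) (h : ∀ η, ‖F η‖ ≤ ‖E η‖) :
    ∃ W : G →ₗ[ℂ] G, (∀ η, W (E η) = F η) ∧ ∀ ξ, ‖W ξ‖ ≤ ‖ξ‖ := by
  obtain ⟨s, hs⟩ := E.rangeRestrict.exists_rightInverse_of_surjective E.range_rangeRestrict
  have hs' : ∀ y : LinearMap.range E, E (s y) = y := fun y =>
    congrArg Subtype.val (LinearMap.congr_fun hs y)
  refine ⟨F ∘ₗ s ∘ₗ (LinearMap.range E).orthogonalProjectionOnto.toLinearMap, fun η => ?_,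
    fun ξ => ?_⟩
  · have h1 : E (s ((LinearMap.range E).orthogonalProjectionOnto (E η)) - η) = 0 := by
      rw [map_sub, hs', Submodule.coe_orthogonalProjectionOnto_apply,
        Submodule.starProjection_eq_self_iff.2 (LinearMap.mem_range_self E η), sub_self]
    have h2 := h (s ((LinearMap.range E).orthogonalProjectionOnto (E η)) - η)
    rw [h1, norm_zero, norm_le_zero_iff, map_sub, sub_eq_zero] at h2
    exact h2
  · refine (h _).trans ?_
    simp only [LinearMap.comp_apply, ContinuousLinearMap.coe_coe, hs']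
    exact (LinearMap.range E).norm_orthogonalProjectionOnto_apply_le ξ

omit [DecidableEq n] in
theorem douglas_mat {m : Type*} [Fintype m] [DecidableEq m] (E F : Matrix n m ℂ)
    (h : E * Eᴴ = F * Fᴴ) : ∃ W : Matrix m m ℂ, E * W = F ∧ ∀ ξ, en (ξ ᵥ* W) ≤ en ξ := by
  classical
  let t : (m → ℂ) ≃ₗ[ℂ] EuclideanSpace ℂ m := (WithLp.linearEquiv 2 ℂ (m → ℂ)).symm
  have hn : ∀ (X : Matrix n m ℂ) η, ((en (η ᵥ* X) ^ 2 : ℝ) : ℂ) = η ᵥ* (X * Xᴴ) ⬝ᵥ star η := by
    intro X η
    rw [en_sq_eq, star_vecMul, dotProduct_mulVec, vecMul_vecMul]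
  obtain ⟨W, hW, hW'⟩ := douglas (t.toLinearMap ∘ₗ E.vecMulLinear) (t.toLinearMap ∘ₗ F.vecMulLinear)
    (fun η => by
      have h1 := hn E η
      rw [h, ← hn F η] at h1
      have h2 : en (η ᵥ* E) ^ 2 = en (η ᵥ* F) ^ 2 := by exact_mod_cast h1
      exact ((sq_eq_sq₀ (en_nonneg _) (en_nonneg _)).1 h2).ge)
  let W' : (m → ℂ) →ₗ[ℂ] (m → ℂ) := t.symm.toLinearMap ∘ₗ W ∘ₗ t.toLinearMap
  have e : ∀ ξ, ξ ᵥ* LinearMap.toMatrixRight' W' = W' ξ := fun ξ => by
    rw [← Matrix.toLinearMapRight'_apply, LinearMap.toMatrixRight'.symm_apply_apply]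
  refine ⟨LinearMap.toMatrixRight' W', ?_, fun ξ => ?_⟩
  · refine Matrix.ext_of_single_vecMul fun i => ?_
    rw [← vecMul_vecMul, e]
    have := hW (Pi.single i 1)
    simp only [LinearMap.comp_apply, LinearEquiv.coe_coe, vecMulLinear_apply] at this
    simp only [W', LinearMap.comp_apply, LinearEquiv.coe_coe, this, LinearEquiv.symm_apply_apply]
  · rw [e]
    exact hW' (t ξ)

/-- Complete polynomial boundedness with constant two on the disc of radius `ρ`. -/
def CB (T : Matrix n n ℂ) (ρ : ℝ) : Prop :=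
  ∀ (N : ℕ) (V : ℕ → Matrix n n ℂ) (M : ℝ),
    (∀ z : ℂ, ‖z‖ ≤ ρ → ∀ w, en (w ᵥ* ∑ k ∈ Finset.range N, z ^ k • V k) ^ 2 ≤ M ^ 2 * en w ^ 2) →
    ∀ Y, hs (∑ k ∈ Finset.range N, T ^ k * Y * V k) ≤ 4 * M ^ 2 * hs Y

theorem CB.pow {T : Matrix n n ℂ} {ρ : ℝ} (h : CB T ρ) (k : ℕ) (Y : Matrix n n ℂ) :
    hs (T ^ k * Y) ≤ 4 * hs Y * (ρ ^ 2) ^ k := by
  have := h (k + 1) (fun j => if j = k then 1 else 0) (ρ ^ k) (fun z hz w => by
    rw [Finset.sum_eq_single k (fun j _ hj => by simp [hj]) (by simp)]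
    simp only [if_true, vecMul_smul, vecMul_one, en_smul, norm_pow, mul_pow]
    gcongr) Y
  rw [Finset.sum_eq_single k (fun j _ hj => by simp [hj]) (by simp)] at this
  simp only [if_true, Matrix.mul_one] at this
  calc _ ≤ _ := this
    _ = _ := by ring

theorem CB.tendsto {T : Matrix n n ℂ} {ρ : ℝ} (h : CB T ρ) (h0 : 0 ≤ ρ) (h1 : ρ < 1) :
    Tendsto (fun k => T ^ k) atTop (𝓝 0) :=
  tendsto_of_hs (ρ := ρ ^ 2) (by positivity) (by nlinarith) fun k => by simpa using h.pow k 1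

/-- Truncated transfer functions of a contractive colligation are almost contractive. -/
theorem transfer_bound {a b c d : Matrix n n ℂ}
    (hW : ∀ ξ, en (ξ ᵥ* fromBlocks a b c d) ≤ en ξ) {ρ : ℝ} (h1 : ρ < 1) {z : ℂ} (hz : ‖z‖ ≤ ρ)
    (N : ℕ) (w : n → ℂ) :
    en (w ᵥ* (d + ∑ k ∈ Finset.range N, z ^ (k + 1) • (c * a ^ k * b))) ^ 2
      ≤ (1 + 2 * ρ ^ N / (1 - ρ)) * en w ^ 2 := by
  have h0 : 0 ≤ ρ := (norm_nonneg _).trans hz
  have hW' : ∀ s w, en (s ᵥ* a + w ᵥ* c) ^ 2 + en (s ᵥ* b + w ᵥ* d) ^ 2 ≤ en s ^ 2 + en w ^ 2 := by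
    intro s w
    have h := pow_le_pow_left₀ (en_nonneg _) (hW (Sum.elim s w)) 2
    rwa [vecMul_fromBlocks, en_elim, en_elim] at h
  have ha : ∀ s, en (s ᵥ* a) ≤ en s := fun s => by
    have h := hW' s 0
    simp only [zero_vecMul, add_zero, en_zero] at h
    exact (sq_le_sq₀ (en_nonneg _) (en_nonneg _)).1 (by nlinarith [sq_nonneg (en (s ᵥ* b))])
  have hc : en (w ᵥ* c) ≤ en w := by
    have h := hW' 0 w
    simp only [zero_vecMul, zero_add, en_zero] at h
    exact (sq_le_sq₀ (en_nonneg _) (en_nonneg _)).1 (by nlinarith [sq_nonneg (en (w ᵥ* d))])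
  have hk : ∀ k, en (w ᵥ* (c * a ^ k)) ≤ en w := by
    intro k
    induction k with
    | zero => simpa using hc
    | succ k ih => rw [pow_succ, ← Matrix.mul_assoc, ← vecMul_vecMul]; exact (ha _).trans ih
  have hk' : ∀ k, en (z ^ k • w ᵥ* (c * a ^ k)) ≤ ρ ^ k * en w := fun k => by
    rw [en_smul, norm_pow]
    exact mul_le_mul (by gcongr) (hk k) (en_nonneg _) (by positivity)
  set s : ℕ → n → ℂ := fun N => ∑ k ∈ Finset.range N, z ^ k • w ᵥ* (c * a ^ k) with hs
  have hsb : ∀ N, en (s N) ≤ en w / (1 - ρ) := by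
    have : ∀ N, en (s N) ≤ (∑ k ∈ Finset.range N, ρ ^ k) * en w := by
      intro N
      induction N with
      | zero => simp [hs, en_zero]
      | succ N ih =>
        simp only [hs, Finset.sum_range_succ, add_mul] at ih ⊢
        exact (en_add_le _ _).trans (add_le_add ih (hk' N))
    intro N
    refine (this N).trans ?_
    rw [div_eq_inv_mul]
    refine mul_le_mul_of_nonneg_right ?_ (en_nonneg _)
    rw [← tsum_geometric_of_lt_one h0 h1]
    exact (summable_geometric_of_lt_one h0 h1).sum_le_tsum _ fun _ _ => by positivity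
  have e1 : (z • s N) ᵥ* a + w ᵥ* c = s (N + 1) := by
    simp only [hs, Finset.sum_range_succ', Finset.smul_sum, sum_vecMul, smul_vecMul,
      vecMul_vecMul, smul_smul, pow_zero, one_smul, Matrix.mul_one, pow_succ, Matrix.mul_assoc,
      mul_comm z]
  have e2 : (z • s N) ᵥ* b + w ᵥ* d
      = w ᵥ* (d + ∑ k ∈ Finset.range N, z ^ (k + 1) • (c * a ^ k * b)) := by
    simp only [hs, Finset.smul_sum, sum_vecMul, smul_vecMul, vecMul_vecMul, smul_smul, pow_succ,
      mul_comm z, vecMul_add, vecMul_sum, vecMul_smul, add_comm]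
  have h2 := hW' (z • s N) w
  rw [e1, e2, en_smul] at h2
  have h3 : en (s N) ≤ en (s (N + 1)) + ρ ^ N * en w := by
    have : s N = s (N + 1) + (-1 : ℂ) • z ^ N • w ᵥ* (c * a ^ N) := by
      simp [hs, Finset.sum_range_succ]
    conv_lhs => rw [this]
    refine (en_add_le _ _).trans ?_
    rw [en_smul]
    simpa using hk' N
  have h4 : (‖z‖ * en (s N)) ^ 2 ≤ en (s N) ^ 2 := by
    gcongr
    · exact mul_nonneg (norm_nonneg _) (en_nonneg _)
    · exact mul_le_of_le_one_left (en_nonneg _) (hz.trans h1.le)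
  have h5 : en (s N) ^ 2 - en (s (N + 1)) ^ 2 ≤ ρ ^ N * en w * (2 * (en w / (1 - ρ))) := by
    rw [sq_sub_sq, mul_comm]
    exact mul_le_mul (by linarith) (by linarith [hsb N, hsb (N + 1)])
      (add_nonneg (en_nonneg _) (en_nonneg _)) (mul_nonneg (by positivity) (en_nonneg _))
  have h6 : ρ ^ N * en w * (2 * (en w / (1 - ρ))) = 2 * ρ ^ N / (1 - ρ) * en w ^ 2 := by ring
  linarith

theorem CB.dual {T : Matrix n n ℂ} {ρ : ℝ} (h : CB T ρ) (h0 : 0 ≤ ρ) (h1 : ρ < 1)
    {Z X Y : Matrix n n ℂ} (e : T * (Z * Zᴴ) * Tᴴ + Y * Yᴴ = Z * Zᴴ + X * Xᴴ) :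
    hs X ≤ 4 * hs Y := by
  obtain ⟨W, hW, hW'⟩ := douglas_mat (fromCols (T * Z) Y) (fromCols Z X) (by
    rw [conjTranspose_fromCols_eq_fromRows_conjTranspose,
      conjTranspose_fromCols_eq_fromRows_conjTranspose, fromCols_mul_fromRows,
      fromCols_mul_fromRows, ← e, conjTranspose_mul]
    simp only [Matrix.mul_assoc])
  rw [← fromBlocks_toBlocks W] at hW hW'
  generalize W.toBlocks₁₁ = a, W.toBlocks₁₂ = b, W.toBlocks₂₁ = c, W.toBlocks₂₂ = d at hW hW'
  rw [fromCols_mul_fromBlocks, fromCols_ext_iff] at hW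
  obtain ⟨eZ, eX⟩ := hW
  have eN : ∀ N, X - T ^ (N + 1) * (Z * a ^ N * b)
      = Y * d + ∑ k ∈ Finset.range N, T ^ (k + 1) * Y * (c * a ^ k * b) := by
    intro N
    induction N with
    | zero => simp [← eX, Matrix.mul_assoc]
    | succ N ih =>
      rw [Finset.sum_range_succ, ← add_assoc, ← ih]
      conv_rhs => rw [← eZ]
      simp only [Matrix.add_mul, Matrix.mul_add, pow_succ' a, pow_succ T (N + 1), Matrix.mul_assoc]
      abel
  have hb : ∀ N, hs (X - T ^ (N + 1) * (Z * a ^ N * b))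
      ≤ 4 * (1 + 2 * ρ ^ N / (1 - ρ)) * hs Y := by
    intro N
    have hp : 0 ≤ 1 + 2 * ρ ^ N / (1 - ρ) := by
      have : 0 < 1 - ρ := by linarith
      positivity
    have := h (N + 1) (fun k => Nat.casesOn k d fun k => c * a ^ k * b)
      (√(1 + 2 * ρ ^ N / (1 - ρ))) (fun z hz w => by
        rw [Real.sq_sqrt hp, Finset.sum_range_succ', add_comm]
        simpa using transfer_bound hW' h1 hz N w) Y
    rw [Real.sq_sqrt hp, Finset.sum_range_succ', add_comm] at this
    rw [eN]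
    simpa using this
  have hrow : ∀ (P Q : Matrix n n ℂ), (∀ s, en (s ᵥ* Q) ≤ en s) → hs (P * Q) ≤ hs P := by
    intro P Q hQ
    refine Finset.sum_le_sum fun i _ => ?_
    have := pow_le_pow_left₀ (en_nonneg _) (hQ (P i)) 2
    rw [en_sq, en_sq] at this
    exact this
  have hW'' : ∀ s, en (s ᵥ* a) ^ 2 + en (s ᵥ* b) ^ 2 ≤ en s ^ 2 := by
    intro s
    have h := pow_le_pow_left₀ (en_nonneg _) (hW' (Sum.elim s 0)) 2
    rw [vecMul_fromBlocks, en_elim, en_elim] at h
    simpa [en_zero] using h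
  have hZ : ∀ N, hs (Z * a ^ N * b) ≤ hs Z := by
    intro N
    refine (hrow _ b fun s => (sq_le_sq₀ (en_nonneg _) (en_nonneg _)).1
      (by nlinarith [hW'' s, sq_nonneg (en (s ᵥ* a))])).trans ?_
    induction N with
    | zero => simp
    | succ N ih =>
      rw [pow_succ, ← Matrix.mul_assoc]
      exact (hrow _ a fun s => (sq_le_sq₀ (en_nonneg _) (en_nonneg _)).1
        (by nlinarith [hW'' s, sq_nonneg (en (s ᵥ* b))])).trans ih
  have hR : Tendsto (fun N => T ^ (N + 1) * (Z * a ^ N * b)) atTop (𝓝 0) := by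
    refine tendsto_of_hs (C := 4 * hs Z * ρ ^ 2) (ρ := ρ ^ 2) (by positivity) (by nlinarith)
      fun N => (h.pow _ _).trans ?_
    rw [pow_succ' (ρ ^ 2), ← mul_assoc]
    gcongr
    exact hZ N
  have hl : Tendsto (fun N => hs (X - T ^ (N + 1) * (Z * a ^ N * b))) atTop (𝓝 (hs X)) := by
    simpa [Function.comp_def] using (continuous_hs.tendsto _).comp (hR.const_sub X)
  have hr : Tendsto (fun N : ℕ => 4 * (1 + 2 * ρ ^ N / (1 - ρ)) * hs Y) atTop (𝓝 (4 * hs Y)) := by
    simpa using (((((tendsto_pow_atTop_nhds_zero_of_lt_one h0 h1).const_mul 2).div_const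
      (1 - ρ)).const_add 1).const_mul 4).mul_const (hs Y)
  exact le_of_tendsto_of_tendsto' hl hr hb

/-- A unitarily diagonalised Hermitian matrix. -/
noncomputable def fc (U : Matrix n n ℂ) (d : n → ℝ) : Matrix n n ℂ :=
  U * diagonal (fun i => (d i : ℂ)) * Uᴴ

theorem exists_fc {D : Matrix n n ℂ} (hD : D.IsHermitian) :
    ∃ (U : Matrix n n ℂ) (d : n → ℝ), Uᴴ * U = 1 ∧ U * Uᴴ = 1 ∧ D = fc U d := by
  refine ⟨hD.eigenvectorUnitary, hD.eigenvalues, ?_, ?_, ?_⟩
  · exact hD.eigenvectorUnitary.2.1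
  · exact hD.eigenvectorUnitary.2.2
  · conv_lhs => rw [hD.spectral_theorem]
    rfl

theorem fc_psd (U : Matrix n n ℂ) {d : n → ℝ} (hd : ∀ i, 0 ≤ d i) : (fc U d).PosSemidef :=
  (PosSemidef.diagonal (fun i => by simpa using hd i)).mul_mul_conjTranspose_same U

theorem fc_sub (U : Matrix n n ℂ) (d d' : n → ℝ) :
    fc U d - fc U d' = fc U (fun i => d i - d' i) := by
  simp only [fc, ← Matrix.sub_mul, ← Matrix.mul_sub, diagonal_sub, ofReal_sub]

theorem fc_const {U : Matrix n n ℂ} (hU : U * Uᴴ = 1) (t : ℝ) :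
    fc U (fun _ => t) = (t : ℂ) • 1 := by
  rw [fc, ← smul_one_eq_diagonal, Matrix.mul_smul, Matrix.mul_one, Matrix.smul_mul, hU]

theorem fc_mul {U : Matrix n n ℂ} (hU : Uᴴ * U = 1) (d d' : n → ℝ) :
    fc U d * fc U d' = fc U (fun i => d i * d' i) := by
  simp only [fc, Matrix.mul_assoc]
  rw [← Matrix.mul_assoc Uᴴ, hU, Matrix.one_mul, ← Matrix.mul_assoc (diagonal _),
    diagonal_mul_diagonal]
  simp

theorem fc_trace {U : Matrix n n ℂ} (hU : Uᴴ * U = 1) (d : n → ℝ) :
    (fc U d).trace.re = ∑ i, d i := by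
  rw [fc, trace_mul_cycle, hU, Matrix.one_mul, trace_diagonal]
  simp

omit [Fintype n] [DecidableEq n] in
theorem convex_psd_preimage {f : Matrix n n ℂ → Matrix n n ℂ}
    (hf : ∀ (x y : Matrix n n ℂ) (a b : ℝ), a + b = 1 → f (a • x + b • y) = a • f x + b • f y) :
    Convex ℝ {H | (f H).PosSemidef} := fun x hx y hy a b ha hb hab => by
  rw [mem_ofPred_eq, hf x y a b hab]
  exact (PosSemidef.smul hx ha).add (PosSemidef.smul hy hb)

theorem CB.paulsen {T : Matrix n n ℂ} {ρ : ℝ} (h : CB T ρ) (h0 : 0 ≤ ρ) (h1 : ρ < 1) :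
    ∃ H : Matrix n n ℂ, (H - 1).PosSemidef ∧ (((4 : ℝ) : ℂ) • (1 : Matrix n n ℂ) - H).PosSemidef ∧
      (H - Tᴴ * H * T).PosSemidef := by
  by_contra hne
  have hT := h.tendsto h0 h1
  have hT' : Tendsto (fun k => Tᴴ ^ k) atTop (𝓝 0) := by
    have hc : Continuous fun X : Matrix n n ℂ => Xᴴ := by fun_prop
    simpa [Function.comp_def] using (hc.tendsto 0).comp hT
  have : LocallyConvexSpace ℝ (Matrix n n ℂ) :=
    inferInstanceAs (LocallyConvexSpace ℝ (n → n → ℂ))
  obtain ⟨f, u, v, hu, huv, hv⟩ := RCLike.geometric_hahn_banach_compact_closed (𝕜 := ℂ)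
    (s := {H : Matrix n n ℂ | (H - 1).PosSemidef ∧
      (((4 : ℝ) : ℂ) • (1 : Matrix n n ℂ) - H).PosSemidef})
    (t := {H : Matrix n n ℂ | (H - Tᴴ * H * T).PosSemidef})
    ((convex_psd_preimage (f := fun H => H - 1) fun x y a b hab => by
      rw [smul_sub, smul_sub, sub_add_sub_comm, ← add_smul, hab, one_smul]).inter
      (convex_psd_preimage (f := fun H => ((4 : ℝ) : ℂ) • 1 - H) fun x y a b hab => by
      rw [smul_sub, smul_sub, sub_add_sub_comm, ← add_smul, hab, one_smul]))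
    (isCompact_box 4)
    (convex_psd_preimage (f := fun H => H - Tᴴ * H * T) fun x y a b _ => by
      simp only [Matrix.mul_add, Matrix.add_mul, Matrix.mul_smul, Matrix.smul_mul, smul_sub]
      abel)
    (isClosed_psd.preimage (f := fun H => H - Tᴴ * H * T) (by fun_prop))
    (disjoint_left.2 fun H h1 h2 => hne ⟨H, h1.1, h1.2, h2⟩)
  simp only [RCLike.re_to_complex, mem_ofPred_eq] at hu hv
  have hv0 : v < 0 := by simpa using hv 0 (by simpa using PosSemidef.zero)
  have hcone : ∀ c : Matrix n n ℂ, (c - Tᴴ * c * T).PosSemidef → 0 ≤ (f c).re := by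
    intro c hc
    by_contra hneg
    push Not at hneg
    have ht : 0 ≤ v / (f c).re := div_nonneg_of_nonpos hv0.le hneg.le
    have := hv (((v / (f c).re : ℝ) : ℂ) • c) (by
      have := hc.smul (a := ((v / (f c).re : ℝ) : ℂ)) (by exact_mod_cast ht)
      simpa only [smul_sub, Matrix.mul_smul, Matrix.smul_mul] using this)
    rw [map_smul, smul_eq_mul, re_ofReal_mul, div_mul_cancel₀ _ hneg.ne] at this
    exact lt_irrefl _ this
  set D₀ : Matrix n n ℂ := Matrix.of fun j i => f (single i j 1) with hD₀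
  have hf : ∀ H : Matrix n n ℂ, f H = (D₀ * H).trace := by
    intro H
    conv_lhs => rw [matrix_eq_sum_single H]
    simp only [map_sum, trace, diag, mul_apply, hD₀, of_apply]
    rw [Finset.sum_comm]
    refine Finset.sum_congr rfl fun i _ => Finset.sum_congr rfl fun j _ => ?_
    rw [mul_comm, ← smul_eq_mul, ← map_smul, smul_single, smul_eq_mul, mul_one]
  set D : Matrix n n ℂ := D₀ + D₀ᴴ with hD
  have hDh : D.IsHermitian := isHermitian_add_transpose_self D₀
  have hf' : ∀ H : Matrix n n ℂ, H.IsHermitian → (D * H).trace.re = 2 * (f H).re := by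
    intro H hH
    have : (D₀ᴴ * H).trace = conj (D₀ * H).trace := by
      rw [← RCLike.star_def, ← trace_conjTranspose, conjTranspose_mul, hH.eq, trace_mul_comm]
    rw [hD, Matrix.add_mul, trace_add, this, ← hf, add_re, conj_re, two_mul]
  obtain ⟨U, d, hU, hU', hDU⟩ := exists_fc hDh
  obtain ⟨Z, hZ⟩ := stein_surj hT' D
  rw [conjTranspose_conjTranspose] at hZ
  have hZh : Z.IsHermitian := by
    have h2 : (Z - Zᴴ) - Tᴴᴴ * (Z - Zᴴ) * Tᴴ = 0 := by
      have h3 := congrArg conjTranspose hZ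
      simp only [conjTranspose_sub, conjTranspose_mul, conjTranspose_conjTranspose, hDh.eq] at h3
      rw [conjTranspose_conjTranspose, Matrix.mul_sub, Matrix.sub_mul, sub_sub_sub_comm, hZ,
        Matrix.mul_assoc, h3, sub_self]
    have h4 : (Z - Zᴴ).PosSemidef := stein_psd hT' (by rw [h2]; exact PosSemidef.zero)
    have h5 := h4.isHermitian.eq
    rw [conjTranspose_sub, conjTranspose_conjTranspose] at h5
    have h6 : (2 : ℂ) • (Zᴴ - Z) = 0 := by
      rw [two_smul]
      nth_rewrite 1 [h5]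
      abel
    exact sub_eq_zero.1 ((smul_eq_zero.1 h6).resolve_left two_ne_zero)
  have hZp : Z.PosSemidef := by
    refine PosSemidef.of_dotProduct_mulVec_nonneg hZh fun w => ?_
    obtain ⟨c, hc⟩ := stein_surj hT (vecMulVec w (star w))
    have hc' : (c - Tᴴ * c * T).PosSemidef := hc ▸ posSemidef_vecMulVec_self_star w
    have h2 := hf' c (stein_psd hT hc').isHermitian
    have h3 : (D * c).trace = star w ⬝ᵥ Z *ᵥ w := by
      rw [← hZ, Matrix.sub_mul, trace_sub, Matrix.mul_assoc, Matrix.mul_assoc, trace_mul_comm T,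
        Matrix.mul_assoc, ← trace_sub, ← Matrix.mul_sub, hc, mul_vecMulVec, trace_vecMulVec,
        dotProduct_comm]
    rw [Complex.le_def]
    refine ⟨?_, ?_⟩
    · rw [← h3, h2]
      simpa using hcone c hc'
    · simpa using (hZh.im_star_dotProduct_mulVec_self w).symm
  obtain ⟨Z', rfl⟩ := exists_factor hZp
  obtain ⟨X', hX⟩ := exists_factor (fc_psd U (d := fun i => max (-d i) 0) fun i => le_max_right _ _)
  obtain ⟨Y', hY⟩ := exists_factor (fc_psd U (d := fun i => max (d i) 0) fun i => le_max_right _ _)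
  have hd := h.dual h0 h1 (Z := Z') (X := X') (Y := Y') (by
    have : Y' * Y'ᴴ - X' * X'ᴴ = D := by
      rw [← hX, ← hY, fc_sub, hDU]
      congr 1
      ext i
      exact max_zero_sub_max_neg_zero_eq_self _
    rw [← hZ] at this
    rw [← sub_eq_zero] at this ⊢
    rw [← this]
    abel)
  rw [hs_eq_trace, hs_eq_trace, ← hX, ← hY, fc_trace hU, fc_trace hU] at hd
  have ha := hu (fc U fun i => if 0 < d i then 4 else 1) ⟨by
    have := fc_const hU' 1
    rw [ofReal_one, one_smul] at this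
    rw [← this, fc_sub]
    exact fc_psd U fun i => by split_ifs <;> norm_num, by
    rw [← fc_const hU', fc_sub]
    exact fc_psd U fun i => by split_ifs <;> norm_num⟩
  have h2 := hf' (fc U fun i => if 0 < d i then 4 else 1)
    (fc_psd U fun i => by split_ifs <;> norm_num).isHermitian
  rw [hDU, fc_mul hU, fc_trace hU] at h2
  have h3 : ∑ i, d i * (if 0 < d i then 4 else 1)
      = 4 * ∑ i, max (d i) 0 - ∑ i, max (-d i) 0 := by
    rw [Finset.mul_sum, ← Finset.sum_sub_distrib]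
    refine Finset.sum_congr rfl fun i _ => ?_
    split_ifs with hi
    · rw [max_eq_left hi.le, max_eq_right (by linarith)]; ring
    · rw [max_eq_right (not_lt.1 hi), max_eq_left (by linarith)]; ring
  linarith

theorem CB.strict {T : Matrix n n ℂ} {ρ : ℝ} (h : CB T ρ) (h0 : 0 ≤ ρ) (h1 : ρ < 1) :
    ∃ (H : Matrix n n ℂ) (τ : ℝ), (H - 1).PosDef ∧ ((τ : ℂ) • (1 : Matrix n n ℂ) - H).PosDef ∧
      (H - Tᴴ * H * T).PosDef := by
  have hT := h.tendsto h0 h1
  obtain ⟨H, hH⟩ := stein_surj hT (1 + 1)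
  have h2 : (H - Tᴴ * H * T).PosDef := hH ▸ PosDef.one.add PosDef.one
  have h3 := stein_psd hT h2.posSemidef
  obtain ⟨U, d, hU, hU', hHU⟩ := exists_fc h3.isHermitian
  refine ⟨H, 1 + ∑ i, |d i|, ?_, ?_, h2⟩
  · have : H - 1 = 1 + Tᴴ * H * T := by
      rw [sub_eq_iff_eq_add] at hH ⊢
      conv_lhs => rw [hH]
      abel
    rw [this]
    exact PosDef.one.add_posSemidef (h3.conjTranspose_mul_mul_same T)
  · have : ((1 + ∑ i, |d i| : ℝ) : ℂ) • (1 : Matrix n n ℂ) - H
        = 1 + fc U fun j => ∑ i, |d i| - d j := by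
      rw [← fc_sub, fc_const hU', ← hHU, ofReal_add, add_smul, ofReal_one, one_smul]
      abel
    rw [this]
    refine PosDef.one.add_posSemidef (fc_psd U fun j => sub_nonneg.2 ((le_abs_self _).trans ?_))
    exact Finset.single_le_sum (f := fun i => |d i|) (fun _ _ => abs_nonneg _) (Finset.mem_univ j)

theorem CB.optimal [Nonempty n] {T : Matrix n n ℂ} {ρ : ℝ} (h : CB T ρ) (h0 : 0 ≤ ρ) (h1 : ρ < 1) :
    ∃ (H : Matrix n n ℂ) (κ : ℝ), (((H - 1).PosSemidef ∧
      ((κ : ℂ) • (1 : Matrix n n ℂ) - H).PosSemidef ∧ (H - Tᴴ * H * T).PosSemidef) ∧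
      ∀ (H' : Matrix n n ℂ) (τ : ℝ), ((H' - 1).PosSemidef ∧
        ((τ : ℂ) • (1 : Matrix n n ℂ) - H').PosSemidef ∧ (H' - Tᴴ * H' * T).PosSemidef) → κ ≤ τ)
      ∧ 1 ≤ κ ∧ κ ≤ 4 := by
  have hone : ∀ (H : Matrix n n ℂ) (τ : ℝ), (H - 1).PosSemidef →
      ((τ : ℂ) • (1 : Matrix n n ℂ) - H).PosSemidef → 1 ≤ τ := by
    intro H τ h1 h2
    obtain ⟨i⟩ := ‹Nonempty n›
    have := (Complex.le_def.1 ((h1.add h2).diag_nonneg (i := i))).1
    simpa using this
  set S : Set (Matrix n n ℂ × ℝ) := {p | ((p.1 - 1).PosSemidef ∧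
    ((p.2 : ℂ) • (1 : Matrix n n ℂ) - p.1).PosSemidef ∧ (p.1 - Tᴴ * p.1 * T).PosSemidef) ∧
    p.2 ≤ 4} with hS
  have hSc : IsCompact S := by
    refine ((isCompact_box (n := n) 4).prod (isCompact_Icc (a := (1 : ℝ)) (b := 4))).of_isClosed_subset
      (((isClosed_psd.preimage (f := fun p : Matrix n n ℂ × ℝ => p.1 - 1) (by fun_prop)).inter
        ((isClosed_psd.preimage (f := fun p : Matrix n n ℂ × ℝ => (p.2 : ℂ) • 1 - p.1)
          (by fun_prop)).inter
        (isClosed_psd.preimage (f := fun p : Matrix n n ℂ × ℝ => p.1 - Tᴴ * p.1 * T)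
          (by fun_prop)))).inter (isClosed_le continuous_snd continuous_const)) ?_
    rintro ⟨H, τ⟩ ⟨⟨h1, h2, -⟩, h4⟩
    refine ⟨⟨h1, ?_⟩, hone H τ h1 h2, h4⟩
    have := h2.add (PosSemidef.one.smul (a := ((4 - τ : ℝ) : ℂ)) (by exact_mod_cast sub_nonneg.2 h4))
    convert this using 1
    rw [ofReal_sub, sub_smul]
    abel
  obtain ⟨H₀, hH₀⟩ := h.paulsen h0 h1
  obtain ⟨⟨H, κ⟩, ⟨hp, hp4⟩, hmin⟩ := hSc.exists_isMinOn ⟨(H₀, 4), hH₀, le_rfl⟩
    continuous_snd.continuousOn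
  refine ⟨H, κ, ⟨hp, fun H' τ hτ => ?_⟩, hone H κ hp.1 hp.2.1, hp4⟩
  rcases le_total τ 4 with h4 | h4
  · exact hmin (a := (H', τ)) ⟨hτ, h4⟩
  · exact hp4.trans h4

end Crest.Agent.R132
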