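import Crest.Agent.R132.Main
import Crest.Agent.R132.Paulsen
import Crest.Prelude.Def_NumRangeMetric

/-! The optimal metric for `f(A)`. -/

set_option autoImplicit false

open Set Filter Metric Topology Complex Function Matrix
open scoped ComplexConjugate ComplexOrder InnerProductSpace
open Crest.AnalysisR.NumRange

namespace Crest.Agent.R132

theorem nr_eq {n : ℕ} (A : Matrix (Fin n) (Fin n) ℂ) :
    nr (toEuclideanCLM (n := Fin n) (𝕜 := ℂ) A) = numRange A := rfl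

theorem calc_of_agrees {𝔸 : Type*} [NormedRing 𝔸] [NormedAlgebra ℂ 𝔸] {n : ℕ}
    {A : Matrix (Fin n) (Fin n) ℂ} {B : 𝔸} (hB : Polynomial.aeval B A.charpoly = 0)
    {O : Set ℂ} (hO : IsOpen O) {f : ℂ → ℂ} (hf : DifferentiableOn ℂ f O) {p : Polynomial ℂ}
    (hp : AgreesOnSpectrum A f p) : Calc B O f (Polynomial.aeval B p) :=
  Calc.of_agree hO hf p A.charpoly A.charpoly_monic hB (n := n) (by simp)
    fun μ hμ => hp μ (Matrix.mem_spectrum_iff_isRoot_charpoly.2 hμ)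

theorem cb_of_calc {n : Type*} [Fintype n] [DecidableEq n] {A T : Matrix n n ℂ} {O : Set ℂ}
    (hO : IsOpen O) (hOc : Convex ℝ O) (hA : nr (toEuclideanCLM (n := n) (𝕜 := ℂ) A) ⊆ O)
    {f : ℂ → ℂ} (hT : Calc (toEuclideanCLM (n := n) (𝕜 := ℂ) A) O f
      (toEuclideanCLM (n := n) (𝕜 := ℂ) T)) {ρ : ℝ} (hρ : ∀ σ ∈ O, ‖f σ‖ ≤ ρ) : CB T ρ := by
  intro N V M hM Y
  have h := crouzeix hO hOc hA (v := fun i j σ => (∑ k ∈ Finset.range N, f σ ^ k • V k) j i)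
    (Q := fun i j => ∑ k ∈ Finset.range N, V k j i • toEuclideanCLM (n := n) (𝕜 := ℂ) T ^ k)
    (fun i j => (Calc.sum (Finset.range N) fun k _ => (hT.pow k).smul (V k j i)).congr
      (fun σ _ => by simp [Matrix.sum_apply, mul_comm]) rfl) (M := M)
    (fun σ hσ w => by
      have := hM (f σ) (hρ σ hσ) w
      rw [en_sq, en_sq] at this
      simpa only [vecMul, dotProduct, mul_comm (w _)] using this)
    (fun j => WithLp.toLp 2 fun a => Y a j)
  simp only [EuclideanSpace.norm_sq_eq] at h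
  rw [Finset.sum_comm, Finset.sum_comm (f := fun j a => ‖Y a j‖ ^ 2)] at h
  refine le_trans (le_of_eq (Finset.sum_congr rfl fun a _ => Finset.sum_congr rfl fun i _ => ?_)) h
  congr 2
  simp only [← map_pow, _root_.sum_apply, _root_.smul_apply, toEuclideanCLM_toLp, Matrix.sum_apply,
    WithLp.ofLp_sum, WithLp.ofLp_smul, Finset.sum_apply, Pi.smul_apply, smul_eq_mul]
  rw [Finset.sum_comm]
  refine Finset.sum_congr rfl fun k _ => ?_
  rw [mul_apply]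
  exact Finset.sum_congr rfl fun j _ => mul_comm _ _

theorem exists_cb {n : ℕ} (A : Matrix (Fin n) (Fin n) ℂ) {Ω U : Set ℂ} (hΩ₁ : IsOpen Ω)
    (hΩU : closure Ω ⊆ U) {f : ℂ → ℂ} (hf₁ : DifferentiableOn ℂ f U)
    (hf₃ : f '' Ω = Metric.ball 0 1) (hA : numRange A ⊆ Ω) {p : Polynomial ℂ}
    (hp : AgreesOnSpectrum A f p) : ∃ ρ, 0 ≤ ρ ∧ ρ < 1 ∧ CB (Polynomial.aeval A p) ρ := by
  set A' := toEuclideanCLM (n := Fin n) (𝕜 := ℂ) A with hA'
  obtain ⟨δ, hδ, hδΩ⟩ := (isCompact_nr A').exists_cthickening_subset_open hΩ₁ hA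
  have hfΩ : DifferentiableOn ℂ f Ω := hf₁.mono (subset_closure.trans hΩU)
  have hK : IsCompact (f '' cthickening δ (nr A')) :=
    (isCompact_nr A').cthickening.image_of_continuousOn (hfΩ.continuousOn.mono hδΩ)
  obtain ⟨ρ, hρ, hρK⟩ := exists_pos_lt_subset_ball one_pos hK.isClosed
    (hf₃ ▸ image_mono hδΩ : f '' cthickening δ (nr A') ⊆ ball 0 1)
  refine ⟨ρ, hρ.1.le, hρ.2, cb_of_calc (f := f) isOpen_thickening ((convex_nr A').thickening δ)
    (self_subset_thickening hδ _) ?_ fun σ hσ => ?_⟩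
  · rw [← Polynomial.aeval_algHom_apply]
    refine calc_of_agrees ?_ isOpen_thickening
      (hfΩ.mono ((thickening_subset_cthickening _ _).trans hδΩ)) hp
    rw [Polynomial.aeval_algHom_apply, aeval_self_charpoly, map_zero]
  · exact (mem_ball_zero_iff.1 (hρK ⟨σ, thickening_subset_cthickening _ _ hσ, rfl⟩)).le

theorem optimal_metric (n : ℕ) (hn : 1 ≤ n) (A : Matrix (Fin n) (Fin n) ℂ)
    (Ω U : Set ℂ) (hΩ₁ : IsOpen Ω) (hΩU : closure Ω ⊆ U)
    (f : ℂ → ℂ) (hf₁ : DifferentiableOn ℂ f U) (hf₃ : f '' Ω = Metric.ball 0 1)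
    (hA : numRange A ⊆ Ω) (p : Polynomial ℂ) (hp : AgreesOnSpectrum A f p) :
    (∃ (H : Matrix (Fin n) (Fin n) ℂ) (τ : ℝ), MetricStrictlyFeasible (Polynomial.aeval A p) H τ) ∧
    ∃ (H : Matrix (Fin n) (Fin n) ℂ) (κsq : ℝ),
      IsOptimalMetric (Polynomial.aeval A p) H κsq ∧ 1 ≤ κsq ∧ κsq ≤ 4 := by
  obtain ⟨ρ, h0, h1, h⟩ := exists_cb A hΩ₁ hΩU hf₁ hf₃ hA hp
  have : Nonempty (Fin n) := ⟨⟨0, hn⟩⟩
  exact ⟨h.strict h0 h1, h.optimal h0 h1⟩

end Crest.Agent.R132
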