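import Crest.Agent.R132.Density1
import Crest.Agent.R132.Metric

/-! The common positive boundary density. -/

set_option autoImplicit false

open Set Filter Metric Topology Complex Function Matrix
open scoped ComplexConjugate ComplexOrder InnerProductSpace Real
open Crest.AnalysisR.NumRange Crest.Agent.Riemann

namespace Crest.Agent.R132

section
variable {n : Type*} [Fintype n] [DecidableEq n]

theorem exists_common_eigenvector {M B : Matrix n n ℂ} (hc : B * M = M * B) (hM : ¬ IsUnit M) :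
    ∃ (μ : ℂ) (x : n → ℂ), x ≠ 0 ∧ M *ᵥ x = 0 ∧ B *ᵥ x = μ • x := by
  have hinv : ∀ x ∈ LinearMap.ker M.mulVecLin, B.mulVecLin x ∈ LinearMap.ker M.mulVecLin := by
    intro x hx
    rw [LinearMap.mem_ker, mulVecLin_apply] at hx ⊢
    rw [mulVecLin_apply, mulVec_mulVec, ← hc, ← mulVec_mulVec, hx, mulVec_zero]
  have hnt : Nontrivial (LinearMap.ker M.mulVecLin) := by
    rw [Submodule.nontrivial_iff_ne_bot, Ne, LinearMap.ker_eq_bot]
    exact fun h => hM (mulVec_injective_iff_isUnit.1 h)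
  obtain ⟨μ, hμ⟩ := Module.End.exists_eigenvalue (B.mulVecLin.restrict hinv)
  obtain ⟨x, hx⟩ := hμ.exists_hasEigenvector
  exact ⟨μ, x, fun h => hx.2 (Subtype.ext h), x.2, congrArg Subtype.val hx.apply_eq_smul⟩

theorem aeval_conj {S : Matrix n n ℂ} (hS : IsUnit S.det) (A : Matrix n n ℂ) (q : Polynomial ℂ) :
    Polynomial.aeval (S * A * S⁻¹) q = S * Polynomial.aeval A q * S⁻¹ := by
  have hp : ∀ k : ℕ, (S * A * S⁻¹) ^ k = S * A ^ k * S⁻¹ := by
    intro k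
    induction k with
    | zero => simp [mul_nonsing_inv _ hS]
    | succ k ih =>
      rw [pow_succ, ih, pow_succ]
      simp only [Matrix.mul_assoc]
      rw [← Matrix.mul_assoc S⁻¹ S, nonsing_inv_mul _ hS, Matrix.one_mul]
  induction q using Polynomial.induction_on' with
  | add p q hp hq => rw [map_add, map_add, hp, hq, Matrix.mul_add, Matrix.add_mul]
  | monomial k a =>
    simp only [Polynomial.aeval_monomial, hp, ← Algebra.smul_def, Matrix.mul_smul, Matrix.smul_mul]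

omit [DecidableEq n] in
theorem re_quad (x : n → ℂ) : (star x ⬝ᵥ x).re = en x ^ 2 := by
  rw [dotProduct_comm, ← en_sq_eq, ofReal_re]

omit [DecidableEq n] in
theorem re_quad_mul (C : Matrix n n ℂ) (x : n → ℂ) :
    (star x ⬝ᵥ (C * Cᴴ) *ᵥ x).re = en (Cᴴ *ᵥ x) ^ 2 := by
  rw [← re_quad, star_mulVec, conjTranspose_conjTranspose, ← mulVec_mulVec, dotProduct_mulVec]

/-- The pointwise bilinear bound for `Λ ⊗ v`. -/
theorem bilin_bound {m : Type*} [Fintype m] [DecidableEq m] {L : Matrix n n ℂ} (hL : L.PosSemidef)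
    {v : Matrix m m ℂ} {M : ℝ} (hv : ‖toEuclideanCLM (n := m) (𝕜 := ℂ) v‖ ≤ M)
    (x y : m → n → ℂ) :
    (∑ c, ∑ d, v c d * (star (y c) ⬝ᵥ L *ᵥ x d)).re ≤
      M / 2 * (∑ d, (star (x d) ⬝ᵥ L *ᵥ x d).re + ∑ c, (star (y c) ⬝ᵥ L *ᵥ y c).re) := by
  obtain ⟨C, rfl⟩ := exists_factor hL
  have hM : 0 ≤ M := (norm_nonneg _).trans hv
  have h1 : ∑ c, ∑ d, v c d * (star (y c) ⬝ᵥ (C * Cᴴ) *ᵥ x d)
      = ∑ e, ⟪(WithLp.toLp 2 fun c => (Cᴴ *ᵥ y c) e : EuclideanSpace ℂ m),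
        toEuclideanCLM (n := m) (𝕜 := ℂ) v (WithLp.toLp 2 fun d => (Cᴴ *ᵥ x d) e)⟫_ℂ := by
    have h2 : ∀ c d, star (y c) ⬝ᵥ (C * Cᴴ) *ᵥ x d = star (Cᴴ *ᵥ y c) ⬝ᵥ (Cᴴ *ᵥ x d) := fun c d => by
      rw [star_mulVec, conjTranspose_conjTranspose, ← mulVec_mulVec, dotProduct_mulVec]
    simp only [h2, toEuclideanCLM_toLp, PiLp.inner_apply, RCLike.inner_apply]
    have h3 : ∀ X Y : m → n → ℂ, ∑ c, ∑ d, v c d * (star (Y c) ⬝ᵥ X d)
        = ∑ e, ∑ c, (v *ᵥ fun d => X d e) c * conj (Y c e) := by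
      intro X Y
      conv_rhs => rw [Finset.sum_comm]
      refine Finset.sum_congr rfl fun c _ => ?_
      simp only [dotProduct, mulVec, Finset.mul_sum, Finset.sum_mul, Pi.star_apply, RCLike.star_def]
      rw [Finset.sum_comm]
      exact Finset.sum_congr rfl fun e _ => Finset.sum_congr rfl fun d _ => by ring
    exact h3 (fun d => Cᴴ *ᵥ x d) (fun c => Cᴴ *ᵥ y c)
  rw [h1, re_sum]
  simp only [re_quad_mul, en_sq]
  rw [Finset.sum_comm (f := fun d e => ‖(Cᴴ *ᵥ x d) e‖ ^ 2),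
    Finset.sum_comm (f := fun d e => ‖(Cᴴ *ᵥ y d) e‖ ^ 2), ← Finset.sum_add_distrib,
    Finset.mul_sum]
  refine Finset.sum_le_sum fun e _ => (Complex.re_le_norm _).trans ((norm_inner_le_norm _ _).trans ?_)
  have h3 := (toEuclideanCLM (n := m) (𝕜 := ℂ) v).le_of_opNorm_le hv
    (WithLp.toLp 2 fun d => (Cᴴ *ᵥ x d) e)
  have h4 := EuclideanSpace.norm_sq_eq (WithLp.toLp 2 fun d => (Cᴴ *ᵥ x d) e : EuclideanSpace ℂ m)
  have h5 := EuclideanSpace.norm_sq_eq (WithLp.toLp 2 fun d => (Cᴴ *ᵥ y d) e : EuclideanSpace ℂ m)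
  simp only at h4 h5
  rw [← h4, ← h5]
  refine (mul_le_mul_of_nonneg_left h3 (norm_nonneg _)).trans ?_
  generalize ‖(WithLp.toLp 2 fun d => (Cᴴ *ᵥ x d) e : EuclideanSpace ℂ m)‖ = a,
    ‖(WithLp.toLp 2 fun d => (Cᴴ *ᵥ y d) e : EuclideanSpace ℂ m)‖ = b
  nlinarith [mul_nonneg hM (sq_nonneg (a - b))]

open scoped Matrix.Norms.L2Operator in
theorem avg_quad {F : ℝ → Matrix n n ℂ} (hF : Continuous F) (x y : n → ℂ) :
    avg (fun θ => star y ⬝ᵥ F θ *ᵥ x) = star y ⬝ᵥ avg F *ᵥ x := by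
  let L : Matrix n n ℂ →ₗ[ℂ] ℂ :=
    { toFun := fun M => star y ⬝ᵥ M *ᵥ x
      map_add' := fun a b => by rw [add_mulVec, dotProduct_add]
      map_smul' := fun c a => by simp [smul_mulVec] }
  exact avg_clm (L.toContinuousLinearMap.restrictScalars ℝ) hF

open scoped Matrix.Norms.L2Operator in
theorem avg_entry {F : ℝ → Matrix n n ℂ} (hF : Continuous F) (a b : n) :
    (2 * π : ℂ)⁻¹ * ∫ θ in (0 : ℝ)..2 * π, F θ a b = avg F a b := by
  have h := avg_quad hF (Pi.single b 1) (Pi.single a 1)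
  simp only [← Pi.single_star, star_one, mulVec_single_one, single_dotProduct, one_mul,
    col_apply] at h
  rw [← h, avg, real_smul]
  push_cast
  rfl

open scoped Matrix.Norms.L2Operator in
/-- The norm bound coming from a positive density. -/
theorem density_bound {m : Type*} [Fintype m] [DecidableEq m] {Λ : ℝ → Matrix n n ℂ}
    (hΛ : Continuous Λ) (hp : ∀ θ, (Λ θ).PosSemidef) (h1 : avg Λ = 1) {v : ℝ → Matrix m m ℂ}
    (hv : ∀ c d, Continuous fun θ => v θ c d) {M : ℝ}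
    (hM : ∀ θ, ‖toEuclideanCLM (n := m) (𝕜 := ℂ) (v θ)‖ ≤ M) (x y : m → n → ℂ) :
    (∑ c, ∑ d, star (y c) ⬝ᵥ avg (fun θ => v θ c d • Λ θ) *ᵥ x d).re ≤
      M / 2 * (∑ d, en (x d) ^ 2 + ∑ c, en (y c) ^ 2) := by
  have cq : ∀ x y : n → ℂ, Continuous fun θ => star y ⬝ᵥ Λ θ *ᵥ x := fun x y => by
    simp only [dotProduct, mulVec]; fun_prop
  have e1 : ∑ c, ∑ d, star (y c) ⬝ᵥ avg (fun θ => v θ c d • Λ θ) *ᵥ x d
      = avg (fun θ => ∑ c, ∑ d, v θ c d * (star (y c) ⬝ᵥ Λ θ *ᵥ x d)) := by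
    rw [avg_sum _ fun c _ => continuous_finsetSum _ fun d _ => (hv c d).fun_mul (cq _ _)]
    refine Finset.sum_congr rfl fun c _ => ?_
    rw [avg_sum _ fun d _ => (hv c d).fun_mul (cq _ _)]
    refine Finset.sum_congr rfl fun d _ => ?_
    rw [← avg_quad ((hv c d).fun_smul hΛ)]
    simp [smul_mulVec]
  have e2 : ∀ x : m → n → ℂ,
      ∑ d, en (x d) ^ 2 = avg (fun θ => ∑ d, (star (x d) ⬝ᵥ Λ θ *ᵥ x d).re) := fun x => by
    rw [avg_sum (f := fun d θ => (star (x d) ⬝ᵥ Λ θ *ᵥ x d).re) _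
      fun d _ => continuous_re.comp (cq _ _)]
    refine Finset.sum_congr rfl fun d _ => ?_
    rw [avg_re (cq _ _), avg_quad hΛ, h1, one_mulVec, re_quad]
  have c1 : Continuous fun θ => ∑ c, ∑ d, v θ c d * (star (y c) ⬝ᵥ Λ θ *ᵥ x d) :=
    continuous_finsetSum _ fun c _ => continuous_finsetSum _ fun d _ => (hv c d).fun_mul (cq _ _)
  have c2 : ∀ x : m → n → ℂ, Continuous fun θ => ∑ d, (star (x d) ⬝ᵥ Λ θ *ᵥ x d).re := fun x =>
    continuous_finsetSum _ fun d _ => continuous_re.comp (cq _ _)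
  rw [e1, e2, e2, ← avg_add (c2 x) (c2 y), ← avg_const_mul_real, ← avg_re c1]
  exact avg_mono (continuous_re.comp c1) (continuous_const.mul ((c2 x).add (c2 y)))
    fun θ => bilin_bound (hp θ) (hM θ) x y

/-- Transport of the bilinear bound through the similarity. -/
theorem norm_le_of_bilin {m : Type*} [Fintype m] [DecidableEq m] {S : Matrix n n ℂ}
    (hS : S.IsHermitian) (hSu : IsUnit S.det) {κ : ℝ} (hκ : 0 < κ) (h1 : (S * S - 1).PosSemidef)
    (h2 : ((κ : ℂ) • (1 : Matrix n n ℂ) - S * S).PosSemidef) {Q : m → m → Matrix n n ℂ} {M : ℝ}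
    (hM : 0 ≤ M)
    (hQ : ∀ x y : m → n → ℂ, (∑ c, ∑ d, star (y c) ⬝ᵥ (S * Q c d * S⁻¹) *ᵥ x d).re ≤
      M / 2 * (∑ d, en (x d) ^ 2 + ∑ c, en (y c) ^ 2)) :
    ‖toEuclideanCLM (n := n × m) (𝕜 := ℂ)
      (Matrix.of fun (i : n × m) (j : n × m) => Q i.2 j.2 i.1 j.1)‖ ≤ √κ * M := by
  have hSS : ∀ x, (star x ⬝ᵥ (S * S) *ᵥ x).re = en (S *ᵥ x) ^ 2 := fun x => by
    have := re_quad_mul S x
    rwa [hS.eq] at this
  have b1 : ∀ x, en (S *ᵥ x) ^ 2 ≤ κ * en x ^ 2 := fun x => by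
    have := (Complex.le_def.1 (h2.dotProduct_mulVec_nonneg x)).1
    rw [sub_mulVec, dotProduct_sub, sub_re, hSS, smul_mulVec, one_mulVec, dotProduct_smul,
      smul_eq_mul, re_ofReal_mul, re_quad, zero_re] at this
    linarith
  have b2 : ∀ y, en (S⁻¹ *ᵥ y) ^ 2 ≤ en y ^ 2 := fun y => by
    have := (Complex.le_def.1 (h1.dotProduct_mulVec_nonneg (S⁻¹ *ᵥ y))).1
    rw [sub_mulVec, dotProduct_sub, sub_re, hSS, one_mulVec, re_quad, zero_re, mulVec_mulVec,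
      mul_nonsing_inv _ hSu, one_mulVec] at this
    linarith
  have hQ' : ∀ x y : m → n → ℂ, (∑ c, ∑ d, star (y c) ⬝ᵥ Q c d *ᵥ x d).re ≤
      M / 2 * (κ * ∑ d, en (x d) ^ 2 + ∑ c, en (y c) ^ 2) := by
    intro x y
    have h := hQ (fun d => S *ᵥ x d) (fun c => S⁻¹ *ᵥ y c)
    have e : ∀ c d, star (S⁻¹ *ᵥ y c) ⬝ᵥ (S * Q c d * S⁻¹) *ᵥ S *ᵥ x d
        = star (y c) ⬝ᵥ Q c d *ᵥ x d := fun c d => by
      rw [star_mulVec, ← dotProduct_mulVec, mulVec_mulVec, mulVec_mulVec, hS.inv.eq]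
      simp only [← Matrix.mul_assoc]
      rw [nonsing_inv_mul _ hSu, Matrix.one_mul, Matrix.mul_assoc, nonsing_inv_mul _ hSu,
        Matrix.mul_one]
    simp only [e] at h
    refine h.trans (mul_le_mul_of_nonneg_left (add_le_add ?_ ?_) (by positivity))
    · rw [Finset.mul_sum]; exact Finset.sum_le_sum fun d _ => b1 _
    · exact Finset.sum_le_sum fun d _ => b2 _
  refine ContinuousLinearMap.opNorm_le_of_unit_norm (by positivity) fun x hx => ?_
  set y := toEuclideanCLM (n := n × m) (𝕜 := ℂ)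
      (Matrix.of fun (i : n × m) (j : n × m) => Q i.2 j.2 i.1 j.1) x with hy
  rcases (norm_nonneg y).eq_or_lt with h0 | h0
  · rw [← h0]; positivity
  have hsum : ∀ z : EuclideanSpace ℂ (n × m), ∑ d, en (fun b => z (b, d)) ^ 2 = ‖z‖ ^ 2 := by
    intro z
    simp only [en_sq, EuclideanSpace.norm_sq_eq, Fintype.sum_prod_type]
    exact Finset.sum_comm
  set s : ℝ := √κ / ‖y‖ with hs
  have h := hQ' (fun d b => x (b, d)) (fun c a => ((s : ℂ) • y) (a, c))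
  rw [hsum, hsum, hx, norm_smul, Complex.norm_real, Real.norm_of_nonneg (by positivity)] at h
  have e : ∑ c, ∑ d, star (fun a => ((s : ℂ) • y) (a, c)) ⬝ᵥ Q c d *ᵥ (fun b => x (b, d))
      = ((s * ‖y‖ ^ 2 : ℝ) : ℂ) := by
    have hyv : ∀ a c, ∑ d, (Q c d *ᵥ fun b => x (b, d)) a = y (a, c) := fun a c => by
      rw [hy, ofLp_toEuclideanCLM]
      simp only [mulVec, dotProduct, of_apply, Fintype.sum_prod_type]
      exact Finset.sum_comm
    rw [← hsum]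
    push_cast
    rw [Finset.mul_sum]
    refine Finset.sum_congr rfl fun c _ => ?_
    rw [← dotProduct_sum]
    have := en_sq_eq (fun a => y (a, c))
    push_cast at this
    rw [this]
    simp only [dotProduct, Finset.sum_apply, hyv, Pi.star_apply, PiLp.smul_apply, smul_eq_mul,
      RCLike.star_def, map_mul, conj_ofReal, Finset.mul_sum]
    exact Finset.sum_congr rfl fun a _ => by ring
  rw [e, ofReal_re, hs, div_mul_cancel₀ _ h0.ne', Real.sq_sqrt hκ.le] at h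
  have hk : 0 < √κ := Real.sqrt_pos.2 hκ
  have e2 : √κ / ‖y‖ * ‖y‖ ^ 2 = √κ * ‖y‖ := by field_simp
  have e3 : M / 2 * (κ * 1 ^ 2 + κ) = √κ * (√κ * M) := by
    rw [← mul_assoc, Real.mul_self_sqrt hκ.le]; ring
  rw [e2, e3] at h
  exact le_of_mul_le_mul_left h hk

end

theorem isUnit_of_notMem_numRange {n : ℕ} {A : Matrix (Fin n) (Fin n) ℂ} {σ : ℂ}
    (h : σ ∉ numRange A) : IsUnit (σ • (1 : Matrix (Fin n) (Fin n) ℂ) - A) := by
  by_contra hu
  obtain ⟨μ, x, hx, h1, -⟩ := exists_common_eigenvector (B := 1) (by simp) hu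
  have hx' : (WithLp.toLp 2 x : EuclideanSpace ℂ (Fin n)) ≠ 0 := by simpa using hx
  obtain ⟨z, hz, e⟩ := exists_nr (toEuclideanCLM (n := Fin n) (𝕜 := ℂ) A) hx'
  rw [sub_mulVec, smul_mulVec, one_mulVec, sub_eq_zero] at h1
  rw [toEuclideanCLM_toLp, ← h1, WithLp.toLp_smul, inner_smul_right,
    inner_self_eq_norm_sq_to_K] at e
  have hn : ((‖(WithLp.toLp 2 x : EuclideanSpace ℂ (Fin n))‖ ^ 2 : ℝ) : ℂ) ≠ 0 := by
    exact_mod_cast pow_ne_zero 2 (norm_ne_zero_iff.2 hx')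
  have : σ = z := by
    apply mul_left_cancel₀ hn
    rw [← e]; simp [mul_comm]
  exact h (this ▸ hz)

end Crest.Agent.R132
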