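import Crest.Agent.R132.Density2

/-! The common positive boundary density: assembly. -/

set_option autoImplicit false

open Set Filter Metric Topology Complex Function Matrix
open scoped ComplexConjugate ComplexOrder InnerProductSpace Real
open Crest.AnalysisR.NumRange Crest.Agent.Riemann

namespace Crest.Agent.R132

theorem density_psd {n : Type*} [Fintype n] [DecidableEq n] {T : Matrix n n ℂ}
    (hT : (1 - Tᴴ * T).PosSemidef) {ζ w : ℂ} (hζ : ‖ζ‖ = 1) (hu : IsUnit (1 - ζ⁻¹ • T))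
    (hw : 0 ≤ w) :
    (w • (Ring.inverse (1 - ζ⁻¹ • T) + Ring.inverse (1 - ζ • Tᴴ) - 1)).PosSemidef := by
  have hζ0 : ζ ≠ 0 := norm_pos_iff.1 (by rw [hζ]; exact one_pos)
  have hc : conj ζ⁻¹ = ζ := by
    rw [Complex.inv_def, normSq_eq_norm_sq, hζ]; simp
  have hs : star (1 - ζ⁻¹ • T) = 1 - ζ • Tᴴ := by
    rw [star_sub, star_one, star_smul, RCLike.star_def, hc, star_eq_conjTranspose]
  set J := Ring.inverse (1 - ζ⁻¹ • T) with hJ
  have hJ' : Ring.inverse (1 - ζ • Tᴴ) = Jᴴ := by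
    rw [← hs, Ring.inverse_star, star_eq_conjTranspose]
  have e1 : (1 - ζ⁻¹ • T) * J = 1 := Ring.mul_inverse_cancel _ hu
  have e2 : Jᴴ * (1 - ζ • Tᴴ) = 1 := by
    rw [← hJ']; exact Ring.inverse_mul_cancel _ (hs ▸ hu.star)
  have e3 : J + Jᴴ - 1 = Jᴴ * (1 - Tᴴ * T) * J := by
    have e4 : 1 - Tᴴ * T = (1 - ζ • Tᴴ) + (1 - ζ⁻¹ • T) - (1 - ζ • Tᴴ) * (1 - ζ⁻¹ • T) := by
      simp only [Matrix.mul_sub, Matrix.sub_mul, Matrix.mul_one, Matrix.one_mul, Matrix.mul_smul,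
        Matrix.smul_mul, smul_sub, smul_smul, inv_mul_cancel₀ hζ0, one_smul]
      abel
    rw [e4, Matrix.mul_sub, Matrix.mul_add, ← Matrix.mul_assoc, e2, Matrix.sub_mul, Matrix.add_mul,
      Matrix.one_mul, Matrix.one_mul, Matrix.mul_assoc, e1, Matrix.mul_one]
  rw [hJ', e3]
  exact (hT.conjTranspose_mul_mul_same J).smul hw

open scoped Matrix.Norms.L2Operator in
theorem boundary_density
    (n : ℕ) (hn : 1 ≤ n) (A : Matrix (Fin n) (Fin n) ℂ)
    (Ω U : Set ℂ) (hΩ₁ : IsOpen Ω) (hΩ₂ : Bornology.IsBounded Ω) (hΩ₃ : Convex ℝ Ω)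
    (hU : IsOpen U) (hΩU : closure Ω ⊆ U)
    (f : ℂ → ℂ) (hf₁ : DifferentiableOn ℂ f U) (hf₂ : Set.InjOn f U)
    (hf₃ : f '' Ω = Metric.ball 0 1)
    (G : ℂ → ℂ) (r : ℝ) (hr₂ : r < 1)
    (hG₁ : DifferentiableOn ℂ G {t : ℂ | r < ‖t‖}) (hG₂ : Set.InjOn G {t : ℂ | r < ‖t‖})
    (hG₃ : G '' {t : ℂ | 1 < ‖t‖} = (closure Ω)ᶜ)
    (hA : numRange A ⊆ Ω) (p : Polynomial ℂ) (hp : AgreesOnSpectrum A f p)
    (H : Matrix (Fin n) (Fin n) ℂ) (κsq : ℝ) (hH : IsOptimalMetric (Polynomial.aeval A p) H κsq)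
    (S : Matrix (Fin n) (Fin n) ℂ) (hS₁ : S.PosSemidef) (hS₂ : S * S = H) :
    ∃ Λ : ℝ → Matrix (Fin n) (Fin n) ℂ, Continuous Λ ∧ Function.Periodic Λ (2 * Real.pi) ∧
      (∀ θ, (Λ θ).PosSemidef) ∧
      (∀ a b, (2 * Real.pi : ℂ)⁻¹ * (∫ θ in (0 : ℝ)..2 * Real.pi, Λ θ a b)
        = (1 : Matrix (Fin n) (Fin n) ℂ) a b) ∧
      ∀ (m : ℕ), 1 ≤ m → ∀ (V : Set ℂ), IsOpen V → closure Ω ⊆ V →
        ∀ v : ℂ → Matrix (Fin m) (Fin m) ℂ, (∀ c d, DifferentiableOn ℂ (fun z => v z c d) V) →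
        ∀ q : Fin m → Fin m → Polynomial ℂ,
          (∀ c d, AgreesOnSpectrum A (fun z => v z c d) (q c d)) →
          (∀ a b c d, Polynomial.aeval (S * A * S⁻¹) (q c d) a b =
              (2 * Real.pi : ℂ)⁻¹ * (∫ θ in (0 : ℝ)..2 * Real.pi,
                Λ θ a b * v (G (Complex.exp ((θ : ℂ) * Complex.I))) c d)) ∧
          ∀ M : ℝ, (∀ z ∈ closure Ω, ‖Matrix.toEuclideanCLM (n := Fin m) (𝕜 := ℂ) (v z)‖ ≤ M) →
            ‖Matrix.toEuclideanCLM (n := Fin n × Fin m) (𝕜 := ℂ)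
                (Matrix.of fun (i : Fin n × Fin m) (j : Fin n × Fin m) =>
                  Polynomial.aeval A (q i.2 j.2) i.1 j.1)‖ ≤ Real.sqrt κsq * M := by
  obtain ⟨⟨hH1, hH2, hH3⟩, -⟩ := hH
  subst hS₂
  have hne : Ω.Nonempty := by
    have : (f '' Ω).Nonempty := hf₃ ▸ nonempty_ball.2 one_pos
    exact this.of_image
  have hΩU' : Ω ⊆ U := subset_closure.trans hΩU
  have hκ : 0 < κsq := by
    have := (Complex.le_def.1 ((hH1.add hH2).diag_nonneg (i := ⟨0, hn⟩))).1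
    simp at this
    linarith
  have hSu : IsUnit S.det := by
    have h1 : (S * S).PosDef := by simpa using PosDef.one.add_posSemidef hH1
    have h2 := (isUnit_iff_isUnit_det _).1 h1.isUnit
    rw [det_mul] at h2
    exact isUnit_of_mul_isUnit_left h2
  have hSi := mul_nonsing_inv _ hSu
  have hSi' := nonsing_inv_mul _ hSu
  set B := S * A * S⁻¹ with hB
  set T := Polynomial.aeval B p with hT
  have hχ : Polynomial.aeval B A.charpoly = 0 := by
    rw [hB, aeval_conj hSu, aeval_self_charpoly]; simp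
  have hBu : ∀ σ, σ ∉ Ω → IsUnit (σ • (1 : Matrix (Fin n) (Fin n) ℂ) - B) := fun σ hσ => by
    have h1 := isUnit_of_notMem_numRange (A := A) fun h => hσ (hA h)
    have h2 : σ • (1 : Matrix (Fin n) (Fin n) ℂ) - B = S * (σ • 1 - A) * S⁻¹ := by
      simp [hB, Matrix.mul_sub, Matrix.sub_mul, hSi]
    rw [h2]
    exact (((isUnit_iff_isUnit_det _).2 hSu).mul h1).mul
      ((isUnit_iff_isUnit_det _).2 (isUnit_nonsing_inv_det _ hSu))
  obtain ⟨-, hBT, h, hh, he⟩ := calc_of_agrees hχ hU hf₁ hp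
  rw [← hT] at hBT he
  have heig : ∀ (μ : ℂ) (x : Fin n → ℂ), x ≠ 0 → B *ᵥ x = μ • x →
      μ ∈ Ω ∧ T *ᵥ x = f μ • x := by
    intro μ x hx hBx
    have h0 : (μ • (1 : Matrix (Fin n) (Fin n) ℂ) - B) *ᵥ x = 0 := by
      rw [sub_mulVec, smul_mulVec, one_mulVec, hBx, sub_self]
    have hμ : μ ∈ Ω := by
      by_contra hμ
      exact hx (mulVec_injective_iff_isUnit.2 (hBu μ hμ) (h0.trans (mulVec_zero _).symm))
    refine ⟨hμ, ?_⟩
    have h1 := congrArg (· *ᵥ x) (he μ (hΩU' hμ)).2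
    simp only [← mulVec_mulVec, h0, mulVec_zero, sub_mulVec, smul_mulVec, one_mulVec] at h1
    exact (sub_eq_zero.1 h1).symm
  have hhu : ∀ σ ∈ U, IsUnit (h σ) := by
    intro σ hσ
    by_contra hu
    have hc : B * h σ = h σ * B := by
      have := (he σ hσ).1.symm.trans (he σ hσ).2
      simpa [Matrix.mul_sub, Matrix.sub_mul] using this
    obtain ⟨μ, x, hx, h1, h2⟩ := exists_common_eigenvector hc hu
    obtain ⟨hμ, h3⟩ := heig μ x hx h2
    have h4 := congrArg (· *ᵥ x) (he σ hσ).1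
    simp only [← mulVec_mulVec, h1, mulVec_zero, sub_mulVec, smul_mulVec, one_mulVec, h3,
      ← sub_smul, smul_eq_zero, hx, or_false, sub_eq_zero] at h4
    obtain rfl := hf₂ hσ (hΩU' hμ) h4
    have h5 := congrArg (· *ᵥ x) (calc_deriv hU hf₁ hh he hσ).2
    simp only [← mulVec_mulVec, h1, add_mulVec, sub_mulVec, smul_mulVec, one_mulVec, h2, sub_self,
      mulVec_zero, add_zero, smul_eq_zero, hx, or_false] at h5
    exact deriv_ne_zero_of_injOn hU hf₁ hf₂ hσ h5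
  have hTu : ∀ y : ℂ, ‖y‖ ≤ 1 → IsUnit (1 - y • T) := by
    intro y hy
    by_contra hu
    obtain ⟨μ, x, hx, h1, h2⟩ := exists_common_eigenvector (B := B)
      (by simp [Matrix.mul_sub, Matrix.sub_mul, hBT]) hu
    obtain ⟨hμ, h3⟩ := heig μ x hx h2
    rw [sub_mulVec, smul_mulVec, one_mulVec, h3, smul_smul] at h1
    have h4 : (1 - y * f μ) • x = 0 := by rw [sub_smul, one_smul, h1]
    have h5 : y * f μ = 1 := (sub_eq_zero.1 ((smul_eq_zero.1 h4).resolve_right hx)).symm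
    have h6 : ‖f μ‖ < 1 := mem_ball_zero_iff.1 (hf₃ ▸ mem_image_of_mem f hμ)
    have h7 := congrArg norm h5
    rw [norm_mul, norm_one] at h7
    nlinarith [norm_nonneg y, norm_nonneg (f μ)]
  have hTu' : ∀ y : ℂ, ‖y‖ ≤ 1 → IsUnit (1 - y • Tᴴ) := fun y hy => by
    have := (hTu (conj y) (by simpa using hy)).star
    simpa [star_eq_conjTranspose] using this
  have hcontr : (1 - Tᴴ * T).PosSemidef := by
    have h1 := hH3.conjTranspose_mul_mul_same S⁻¹
    convert h1 using 1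
    rw [hT, hB, aeval_conj hSu]
    simp only [conjTranspose_mul, hS₁.isHermitian.inv.eq, hS₁.isHermitian.eq, Matrix.mul_sub,
      Matrix.sub_mul, Matrix.mul_assoc, hSi, Matrix.mul_one, hSi']
  have hopen : IsOpen {t : ℂ | r < ‖t‖} := isOpen_lt continuous_const continuous_norm
  have hGan : ∀ t ∈ sphere (0 : ℂ) 1, AnalyticAt ℂ G t := fun t ht =>
    hG₁.analyticAt (hopen.mem_nhds (by rw [mem_sphere_zero_iff_norm] at ht; simpa [ht] using hr₂))
  have hGout : ∀ t : ℂ, 1 < ‖t‖ → G t ∉ closure Ω := fun t ht =>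
    (hG₃ ▸ mem_image_of_mem G ht : G t ∈ (closure Ω)ᶜ)
  have hG₄ : ∀ t : ℂ, 1 ≤ ‖t‖ → G t ∉ Ω := by
    intro t ht hΩ
    rcases ht.eq_or_lt with h1 | h1
    · have a3 : Tendsto (fun s : ℝ => t * (1 + s)) (𝓝[>] 0) (𝓝 t) := by
        have : Continuous fun s : ℝ => t * (1 + s) := by fun_prop
        simpa using (this.tendsto 0).mono_left (nhdsWithin_le_nhds (s := Ioi 0))
      have a4 := ((hGan t (by simp [← h1])).continuousAt.tendsto.comp a3).eventually
        (hΩ₁.mem_nhds hΩ)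
      obtain ⟨s, hs, hs0⟩ := (a4.and self_mem_nhdsWithin).exists
      refine hGout _ ?_ (subset_closure hs)
      have hs0' : 0 < s := hs0
      rw [norm_mul, ← h1, one_mul, ← ofReal_one, ← ofReal_add, Complex.norm_real,
        Real.norm_of_nonneg (by linarith)]
      linarith
    · exact hGout t h1 (subset_closure hΩ)
  have hGc : ∀ t ∈ sphere (0 : ℂ) 1, G t ∈ closure Ω := by
    intro t ht
    by_contra hc
    obtain ⟨t', ht', e⟩ : G t ∈ G '' {t : ℂ | 1 < ‖t‖} := hG₃ ▸ hc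
    rw [mem_sphere_zero_iff_norm] at ht
    have := hG₂ (hr₂.trans ht') (show r < ‖t‖ by rwa [ht]) e
    rw [this, mem_ofPred_eq, ht] at ht'
    exact lt_irrefl _ ht'
  have hfle : ∀ σ ∈ closure Ω, ‖f σ‖ ≤ 1 :=
    fun σ hσ => le_on_closure (f := fun σ => ‖f σ‖) (g := fun _ => 1)
      (fun z hz => (mem_ball_zero_iff.1 (hf₃ ▸ mem_image_of_mem f hz)).le)
      (hf₁.continuousOn.mono hΩU).norm continuousOn_const hσ
  have hfge : ∀ σ ∈ U, σ ∉ Ω → 1 ≤ ‖f σ‖ := by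
    intro σ hσ hσ'
    by_contra hlt
    obtain ⟨z, hz, e⟩ : f σ ∈ f '' Ω := hf₃ ▸ mem_ball_zero_iff.2 (not_le.1 hlt)
    exact hσ' (hf₂ (hΩU' hz) hσ e ▸ hz)
  have hf1 : ∀ t ∈ sphere (0 : ℂ) 1, ‖f (G t)‖ = 1 := fun t ht =>
    le_antisymm (hfle _ (hGc t ht))
      (hfge _ (hΩU (hGc t ht)) (hG₄ t (mem_sphere_zero_iff_norm.1 ht).ge))
  have hf0 : ∀ t ∈ sphere (0 : ℂ) 1, f (G t) ≠ 0 := fun t ht =>
    norm_pos_iff.1 (by rw [hf1 t ht]; exact one_pos)
  have hw : ∀ t ∈ sphere (0 : ℂ) 1, 0 ≤ t * deriv G t * deriv f (G t) / f (G t) := by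
    intro t ht
    have hd := (hf₁.differentiableAt (hU.mem_nhds (hΩU (hGc t ht)))).hasDerivAt.comp t
      (hGan t ht).differentiableAt.hasDerivAt
    have := weight_nonneg hd (mem_sphere_zero_iff_norm.1 ht)
      (fun w hw => hf1 w (mem_sphere_zero_iff_norm.2 hw)) (by
        filter_upwards [(hGan t ht).continuousAt.eventually (hU.mem_nhds (hΩU (hGc t ht)))]
          with w hw hw1 using hfge _ hw (hG₄ w hw1.le))
    rw [mul_assoc, mul_comm (deriv G t)]
    exact Complex.le_def.2 ⟨this.1, this.2.symm⟩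
  have hs := circleMap_mem_sphere (0 : ℂ) zero_le_one
  set Λ : ℝ → Matrix (Fin n) (Fin n) ℂ := fun θ =>
    (circleMap 0 1 θ * deriv G (circleMap 0 1 θ) * deriv f (G (circleMap 0 1 θ))
      / f (G (circleMap 0 1 θ))) • (Ring.inverse (1 - (f (G (circleMap 0 1 θ)))⁻¹ • T)
        + Ring.inverse (1 - f (G (circleMap 0 1 θ)) • Tᴴ) - 1) with hΛ
  have cG : Continuous fun θ => G (circleMap 0 1 θ) :=
    cont_cm zero_le_one fun t ht => (hGan t ht).continuousAt.continuousWithinAt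
  have cΛ : Continuous Λ := by
    have c1 : Continuous fun θ => deriv G (circleMap 0 1 θ) :=
      cont_cm zero_le_one fun t ht => (hGan t ht).deriv.continuousAt.continuousWithinAt
    have c2 : Continuous fun θ => f (G (circleMap 0 1 θ)) :=
      hf₁.continuousOn.comp_continuous cG fun θ => hΩU (hGc _ (hs θ))
    have c3 : Continuous fun θ => deriv f (G (circleMap 0 1 θ)) :=
      (hf₁.deriv hU).continuousOn.comp_continuous cG fun θ => hΩU (hGc _ (hs θ))
    refine ((((continuous_circleMap 0 1).mul c1).mul c3).div c2 fun θ => hf0 _ (hs θ)).smul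
      (Continuous.sub (Continuous.add ?_ ?_) continuous_const)
    · exact (differentiableOn_inverse (𝕜 := ℂ)).continuousOn.comp_continuous
        (continuous_const.sub ((c2.inv₀ fun θ => hf0 _ (hs θ)).smul continuous_const))
        fun θ => hTu _ (by rw [norm_inv, hf1 _ (hs θ), inv_one])
    · exact (differentiableOn_inverse (𝕜 := ℂ)).continuousOn.comp_continuous
        (continuous_const.sub (c2.smul continuous_const)) fun θ => hTu' _ (hf1 _ (hs θ)).le
  have pΛ : ∀ θ, (Λ θ).PosSemidef := fun θ =>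
    density_psd hcontr (hf1 _ (hs θ)) (hTu _ (by rw [norm_inv, hf1 _ (hs θ), inv_one]))
      (hw _ (hs θ))
  have hres := avg_resolvent hΩ₁ hΩ₂ hne hr₂ hG₁ hG₂ hG₃ hG₄ hBu
  have hform : ∀ V : Set ℂ, IsOpen V → closure Ω ⊆ V → ∀ (v : ℂ → ℂ)
      (Q : Matrix (Fin n) (Fin n) ℂ), Calc B V v Q →
      avg (fun θ => v (G (circleMap 0 1 θ)) • Λ θ) = Q := by
    intro V hV hΩV v Q hQ
    have hW : IsOpen (U ∩ (fun σ => 1 - f σ • Tᴴ) ⁻¹' {x | IsUnit x}) :=
      (continuousOn_const.sub (hf₁.continuousOn.smul continuousOn_const)).isOpen_inter_preimage hU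
        Units.isOpen
    obtain ⟨δ, hδ, hδW⟩ := hΩ₂.isCompact_closure.exists_thickening_subset_open (hW.inter hV)
      fun σ hσ => ⟨⟨hΩU hσ, hTu' _ (hfle σ hσ)⟩, hΩV hσ⟩
    have hOU : thickening δ (closure Ω) ⊆ U := fun σ hσ => (hδW hσ).1.1
    exact avg_density isOpen_thickening (hΩ₃.closure.thickening δ) (hf₁.mono hOU) (hh.mono hOU)
      (fun σ hσ => he σ (hOU hσ)) (fun σ hσ => hhu σ (hOU hσ)) (fun σ hσ => (hδW hσ).1.2) hGan
      (fun t ht => self_subset_thickening hδ _ (hGc t ht)) hf0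
      (fun t ht => hBu _ (hG₄ t (mem_sphere_zero_iff_norm.1 ht).ge)) hres
      (hQ.mono fun σ hσ => (hδW hσ).2)
  have h1 : avg Λ = 1 := by
    simpa using hform univ isOpen_univ (subset_univ _) _ _ (Calc.const 1)
  refine ⟨Λ, cΛ, fun θ => by simp only [hΛ, periodic_circleMap 0 1 θ], pΛ,
    fun a b => by rw [avg_entry cΛ, h1], fun m _ V hV hΩV v hv q hq => ?_⟩
  have cv : ∀ c d, Continuous fun θ => v (G (circleMap 0 1 θ)) c d := fun c d =>
    (hv c d).continuousOn.comp_continuous cG fun θ => hΩV (hGc _ (hs θ))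
  have hQ : ∀ c d, avg (fun θ => v (G (circleMap 0 1 θ)) c d • Λ θ) = Polynomial.aeval B (q c d) :=
    fun c d => hform V hV hΩV (fun z => v z c d) _ (calc_of_agrees hχ hV (hv c d) (hq c d))
  refine ⟨fun a b c d => ?_, fun M hM => ?_⟩
  · rw [← hQ, ← avg_entry ((cv c d).fun_smul cΛ)]
    congr 2
    ext θ
    simp [circleMap, mul_comm]
  · obtain ⟨z, hz⟩ := hne
    refine norm_le_of_bilin (Q := fun c d => Polynomial.aeval A (q c d)) hS₁.isHermitian hSu hκ
      hH1 hH2 ((norm_nonneg _).trans (hM z (subset_closure hz))) fun x y => ?_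
    have := density_bound cΛ pΛ h1 (v := fun θ => v (G (circleMap 0 1 θ))) cv
      (fun θ => hM _ (hGc _ (hs θ))) x y
    simpa only [hQ, hB, aeval_conj hSu] using this

end Crest.Agent.R132
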