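import Crest.Agent.Lib.Riemann.RMT
import Crest.Agent.R132.Avg

/-! The exterior conformal map of a compact convex neighbourhood of `0` (after inversion) and the
positivity properties of the associated kernels. -/

set_option autoImplicit false

open Set Filter Metric Topology Complex Function
open scoped ComplexConjugate Real
open Crest.Agent.Riemann

namespace Crest.Agent.R132

/-- The inverted exterior of `K`. -/
def UK (K : Set ℂ) : Set ℂ := {y | ∀ z ∈ K, y * z ≠ 1}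

theorem isOpen_UK {K : Set ℂ} (hK : IsCompact K) : IsOpen (UK K) := by
  refine isOpen_iff_mem_nhds.2 fun y hy => ?_
  refine hK.eventually_forall_of_forall_eventually (P := fun y z => y * z ≠ 1) fun z hz => ?_
  exact (continuous_mul.continuousAt (x := (y, z))).eventually_ne (hy z hz)

theorem zero_mem_UK (K : Set ℂ) : (0 : ℂ) ∈ UK K := fun z _ => by simp

theorem isBounded_UK {K : Set ℂ} (h0 : K ∈ 𝓝 (0 : ℂ)) : Bornology.IsBounded (UK K) := by
  obtain ⟨δ, hδ, hδK⟩ := Metric.mem_nhds_iff.1 h0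
  refine (isBounded_closedBall (x := (0 : ℂ)) (r := δ⁻¹)).subset fun y hy => ?_
  rw [mem_closedBall_zero_iff]
  by_contra h
  push Not at h
  have hy0 : y ≠ 0 := norm_pos_iff.1 ((inv_pos.2 hδ).trans h)
  refine hy y⁻¹ (hδK ?_) (mul_inv_cancel₀ hy0)
  rw [mem_ball_zero_iff, norm_inv]
  exact inv_lt_of_inv_lt₀ hδ h

theorem starConvex_UK {K : Set ℂ} (hc : Convex ℝ K) (h0 : (0 : ℂ) ∈ K) :
    StarConvex ℝ (0 : ℂ) (UK K) := by
  intro y hy a b ha hb hab z hz h
  refine hy (a • 0 + b • z) (hc h0 hz ha hb hab) ?_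
  rw [← h]; simp; ring

/-- The data of the (inverted) exterior conformal map. -/
structure Ext (K : Set ℂ) where
  φ : ℂ → ℂ
  ψ : ℂ → ℂ
  hK : IsCompact K
  hc : Convex ℝ K
  h0 : K ∈ 𝓝 (0 : ℂ)
  hφ : DifferentiableOn ℂ φ (UK K)
  hψ : DifferentiableOn ℂ ψ (ball 0 1)
  mφ : MapsTo φ (UK K) (ball 0 1)
  mψ : MapsTo ψ (ball 0 1) (UK K)
  l : ∀ z ∈ UK K, ψ (φ z) = z
  r : ∀ w ∈ ball (0 : ℂ) 1, φ (ψ w) = w
  z : φ 0 = 0

theorem nonempty_ext {K : Set ℂ} (hK : IsCompact K) (hc : Convex ℝ K) (h0 : K ∈ 𝓝 (0 : ℂ)) :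
    Nonempty (Ext K) := by
  have hs : IsSimplyConnected (UK K) := by
    have := (starConvex_UK hc (mem_of_mem_nhds h0)).contractibleSpace ⟨0, zero_mem_UK K⟩
    exact (inferInstance : SimplyConnectedSpace (UK K))
  obtain ⟨φ, ψ, h1, h2, h3, h4, h5, h6, h7⟩ :=
    riemann_mapping (isOpen_UK hK) hs (isBounded_UK h0) (zero_mem_UK K)
  exact ⟨⟨φ, ψ, hK, hc, h0, h1, h2, h3, h4, h5, h6, h7⟩⟩

theorem re_inv_nonneg {w : ℂ} (h : 0 ≤ w.re) : 0 ≤ w⁻¹.re := by
  rw [Complex.inv_re]; exact div_nonneg h (normSq_nonneg _)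

theorem re_inv_pos {w : ℂ} (h : 0 < w.re) : 0 < w⁻¹.re := by
  rw [Complex.inv_re]
  refine div_pos h (normSq_pos.2 ?_)
  rintro rfl; simp at h

/-- First-order condition at a boundary maximum of the modulus. -/
theorem re_deriv_nonpos {F : ℂ → ℂ} {F' τ : ℂ} (hF : HasDerivAt F F' 0) (h0 : F 0 = τ)
    (h : ∀ t : ℝ, 0 < t → t < 1 → ‖F t‖ ≤ ‖τ‖) : (conj τ * F').re ≤ 0 := by
  have h1 : HasDerivAt (fun t : ℝ => F t) F' 0 := HasDerivAt.comp_ofReal (by simpa using hF)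
  have h2 : HasDerivAt (fun t : ℝ => (conj τ * F t).re) (conj τ * F').re 0 :=
    (reCLM.hasFDerivAt.comp_hasDerivAt (0 : ℝ) (h1.const_mul (conj τ)))
  refine le_of_tendsto h2.tendsto_slope_zero_right ?_
  filter_upwards [Ioo_mem_nhdsGT (zero_lt_one' ℝ)] with t ht
  rw [smul_eq_mul]
  refine mul_nonpos_of_nonneg_of_nonpos (inv_nonneg.2 ht.1.le) ?_
  simp only [zero_add, ofReal_zero, h0, Complex.conj_mul']
  have h3 := (Complex.re_le_norm (conj τ * F t)).trans_eq (norm_mul _ _)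
  rw [RCLike.norm_conj] at h3
  have h4 := h t ht.1 ht.2
  norm_cast
  nlinarith [norm_nonneg τ]

namespace Ext

variable {K : Set ℂ} (e : Ext K)

/-- `ψ u / u`. -/
noncomputable def χ (u : ℂ) : ℂ := dslope e.ψ 0 u
/-- `u ψ'(u) / ψ(u)`. -/
noncomputable def c (u : ℂ) : ℂ := deriv e.ψ u / e.χ u
/-- The exterior map. -/
noncomputable def g (u : ℂ) : ℂ := (e.ψ u)⁻¹
/-- The normal field. -/
noncomputable def n (u : ℂ) : ℂ := e.c u * e.g u
/-- The Cauchy-type kernel. -/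
noncomputable def N (v u : ℂ) : ℂ := e.c v * e.ψ u / (e.ψ u - e.ψ v)

theorem ψ_zero : e.ψ 0 = 0 := by
  have := e.l 0 (zero_mem_UK K)
  rwa [e.z] at this

theorem inj : InjOn e.ψ (ball 0 1) := fun x hx y hy h => by rw [← e.r x hx, h, e.r y hy]

theorem ψ_ne {u : ℂ} (hu : u ∈ ball (0 : ℂ) 1) (h0 : u ≠ 0) : e.ψ u ≠ 0 := fun h =>
  h0 (e.inj hu (mem_ball_self one_pos) (h.trans e.ψ_zero.symm))

theorem dψ_ne {u : ℂ} (hu : u ∈ ball (0 : ℂ) 1) : deriv e.ψ u ≠ 0 :=
  deriv_ne_zero_of_injOn isOpen_ball e.hψ e.inj hu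

theorem dslope_ne {u v : ℂ} (hu : u ∈ ball (0 : ℂ) 1) (hv : v ∈ ball (0 : ℂ) 1) :
    dslope e.ψ u v ≠ 0 := by
  rcases eq_or_ne v u with rfl | h
  · rw [dslope_same]; exact e.dψ_ne hu
  · rw [dslope_of_ne _ h, slope_def_field]
    exact div_ne_zero (fun h' => h (e.inj hv hu (sub_eq_zero.1 h'))) (sub_ne_zero.2 h)

theorem diff_dslope {u : ℂ} (hu : u ∈ ball (0 : ℂ) 1) :
    DifferentiableOn ℂ (dslope e.ψ u) (ball 0 1) :=
  (differentiableOn_dslope (isOpen_ball.mem_nhds hu)).2 e.hψ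

theorem χ_ne {u : ℂ} (hu : u ∈ ball (0 : ℂ) 1) : e.χ u ≠ 0 :=
  e.dslope_ne (mem_ball_self one_pos) hu

theorem ψ_eq (u : ℂ) : e.ψ u = u * e.χ u := by
  have := sub_smul_dslope e.ψ 0 u
  rw [e.ψ_zero, sub_zero, sub_zero, smul_eq_mul] at this
  exact this.symm

theorem diff_χ : DifferentiableOn ℂ e.χ (ball 0 1) := e.diff_dslope (mem_ball_self one_pos)

theorem diff_c : DifferentiableOn ℂ e.c (ball 0 1) :=
  (e.hψ.deriv isOpen_ball).div e.diff_χ fun _ hu => e.χ_ne hu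

theorem c_ne {u : ℂ} (hu : u ∈ ball (0 : ℂ) 1) : e.c u ≠ 0 := div_ne_zero (e.dψ_ne hu) (e.χ_ne hu)

theorem c_zero : e.c 0 = 1 := by
  rw [c, χ, dslope_same, div_self (e.dψ_ne (mem_ball_self one_pos))]

/-- The points of `K` lie inside every level curve. -/
theorem C1 {z u : ℂ} (hz : z ∈ K) (hu : u ∈ ball (0 : ℂ) 1) :
    0 ≤ ((1 - e.ψ u * z) / e.c u).re := by
  rcases eq_or_ne u 0 with rfl | hu0
  · simp [e.ψ_zero, e.c_zero]
  have hK0 : (0 : ℂ) ∈ K := mem_of_mem_nhds e.h0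
  have hden : ∀ t : ℝ, 0 < t → t < 1 → ∀ y ∈ UK K, 1 - (t : ℂ) * z * y ≠ 0 := by
    intro t ht0 ht1 y hy h
    refine hy ((1 - t) • 0 + t • z) (e.hc hK0 hz (by linarith) ht0.le (by ring)) ?_
    simp only [smul_zero, zero_add, real_smul]
    linear_combination -h
  have hmaps : ∀ t : ℝ, 0 < t → t < 1 → ∀ y ∈ UK K, (1 - t) * y / (1 - (t : ℂ) * z * y) ∈ UK K := by
    intro t ht0 ht1 y hy k hk h
    refine hy ((1 - t) • k + t • z) (e.hc hk hz (by linarith) ht0.le (by ring)) ?_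
    rw [div_mul_eq_mul_div, div_eq_one_iff_eq (hden t ht0 ht1 y hy)] at h
    simp only [real_smul]
    push_cast
    linear_combination h
  have hS : ∀ t : ℝ, 0 < t → t < 1 →
      ‖e.φ ((1 - t) * e.ψ u / (1 - (t : ℂ) * z * e.ψ u))‖ ≤ ‖u‖ := by
    intro t ht0 ht1
    refine norm_le_norm_of_mapsTo_ball (R := 1)
      (f := fun τ => e.φ ((1 - t) * e.ψ τ / (1 - (t : ℂ) * z * e.ψ τ))) ?_ ?_ ?_ (by simpa using hu)
    · refine e.hφ.comp ?_ fun τ hτ => hmaps t ht0 ht1 _ (e.mψ hτ)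
      exact (e.hψ.const_mul _).div ((e.hψ.const_mul _).const_sub _)
        fun τ hτ => hden t ht0 ht1 _ (e.mψ hτ)
    · exact fun τ hτ => ball_subset_closedBall (e.mφ (hmaps t ht0 ht1 _ (e.mψ hτ)))
    · simp [e.ψ_zero, e.z]
  have hφ' : HasDerivAt e.φ (deriv e.ψ u)⁻¹ (e.ψ u) := hasDerivAt_leftInv isOpen_ball e.hψ e.r hu
  have hT : HasDerivAt (fun t : ℂ => (1 - t) * e.ψ u / (1 - t * z * e.ψ u))
      (-(e.ψ u * (1 - e.ψ u * z))) 0 := by
    have h := (((hasDerivAt_id (0 : ℂ)).const_sub 1).mul_const (e.ψ u)).fun_div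
      ((((hasDerivAt_id (0 : ℂ)).mul_const z).mul_const (e.ψ u)).const_sub 1) (by simp)
    refine HasDerivAt.congr_deriv h ?_
    simp only [id]
    ring
  have hF := HasDerivAt.comp_of_eq (0 : ℂ) hφ' hT (by simp)
  have h := re_deriv_nonpos (τ := u) hF (by simp [e.r u hu]) hS
  have hc : conj u * ((deriv e.ψ u)⁻¹ * -(e.ψ u * (1 - e.ψ u * z)))
      = -(((‖u‖ ^ 2 : ℝ) : ℂ) * ((1 - e.ψ u * z) / e.c u)) := by
    have h1 := e.dψ_ne hu
    have h2 := e.χ_ne hu
    push_cast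
    rw [← Complex.conj_mul', c]
    nth_rewrite 1 [e.ψ_eq u]
    field_simp
  rw [hc, neg_re, re_ofReal_mul] at h
  have : 0 < ‖u‖ ^ 2 := by positivity
  by_contra h'
  push Not at h'
  nlinarith

/-- Properness: level curves close to the unit circle lie in any neighbourhood of `K`. -/
theorem proper {O : Set ℂ} (hO : IsOpen O) (hKO : K ⊆ O) :
    ∃ ρ₀, 0 < ρ₀ ∧ ρ₀ < 1 ∧ ∀ u : ℂ, ρ₀ ≤ ‖u‖ → ‖u‖ < 1 → e.g u ∈ O := by
  have hsub : UK O ⊆ UK K := fun y hy z hz => hy z (hKO hz)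
  have hcl : IsClosed (UK O) := by
    refine isOpen_compl_iff.1 (isOpen_iff_mem_nhds.2 fun y hy => ?_)
    simp only [UK, mem_compl_iff, mem_ofPred_eq, not_forall, not_not] at hy
    obtain ⟨z, hz, hyz⟩ := hy
    have hy0 : y ≠ 0 := by rintro rfl; simp at hyz
    have hz' : z = y⁻¹ := eq_inv_of_mul_eq_one_right hyz
    have h1 : ∀ᶠ w in 𝓝 y, w⁻¹ ∈ O :=
      (continuousAt_inv₀ hy0).eventually (hO.mem_nhds (hz' ▸ hz))
    filter_upwards [h1, isOpen_ne.mem_nhds hy0] with w hw hw0 h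
    exact h w⁻¹ hw (mul_inv_cancel₀ hw0)
  have hcomp : IsCompact (UK O) :=
    Metric.isCompact_of_isClosed_isBounded hcl ((isBounded_UK e.h0).subset hsub)
  obtain ⟨y, hy, hmax⟩ := hcomp.exists_isMaxOn ⟨0, zero_mem_UK O⟩
    ((e.hφ.continuousOn.mono hsub).norm)
  have hy1 : ‖e.φ y‖ < 1 := by simpa using e.mφ (hsub hy)
  refine ⟨(1 + ‖e.φ y‖) / 2, by positivity, by linarith, fun u hu hu1 => ?_⟩
  have hu' : u ∈ ball (0 : ℂ) 1 := by simpa using hu1
  have : e.ψ u ∉ UK O := fun h => by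
    have := hmax h
    simp only [mem_ofPred_eq, e.r u hu'] at this
    linarith
  simp only [UK, mem_ofPred_eq, not_forall, not_not] at this
  obtain ⟨z, hz, hyz⟩ := this
  rw [g, ← eq_inv_of_mul_eq_one_right hyz]
  exact hz

/-- Convexity of the level curves, first form. -/
theorem C2 {s τ : ℂ} (hs : ‖s‖ < 1) (hτ : τ ∈ ball (0 : ℂ) 1) :
    0 ≤ ((1 - s * e.χ (s * τ) / e.χ τ) / e.c (s * τ)).re := by
  have hsm : ∀ w ∈ ball (0 : ℂ) 1, s * w ∈ closedBall (0 : ℂ) ‖s‖ := fun w hw => by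
    rw [mem_ball_zero_iff] at hw
    rw [mem_closedBall_zero_iff, norm_mul]
    nlinarith [norm_nonneg s]
  have hsub : closedBall (0 : ℂ) ‖s‖ ⊆ ball 0 1 := closedBall_subset_ball hs
  have hsm' : MapsTo (fun w => s * w) (ball (0 : ℂ) 1) (ball 0 1) := fun w hw => hsub (hsm w hw)
  have hE : DifferentiableOn ℂ (fun τ => (1 - s * e.χ (s * τ) / e.χ τ) / e.c (s * τ))
      (ball 0 1) := by
    have h1 : DifferentiableOn ℂ (fun w : ℂ => s * w) (ball 0 1) := by fun_prop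
    refine DifferentiableOn.div (DifferentiableOn.const_sub (DifferentiableOn.div
      ((e.diff_χ.comp h1 hsm').const_mul s) e.diff_χ fun w hw => e.χ_ne hw) 1)
      (e.diff_c.comp h1 hsm') fun w hw => e.c_ne (hsm' hw)
  obtain ⟨C, hC⟩ := (isCompact_closedBall (0 : ℂ) ‖s‖).exists_bound_of_continuousOn
    (f := fun v => e.ψ v / e.c v) ((e.hψ.div e.diff_c fun w hw => e.c_ne hw).continuousOn.mono hsub)
  have hC0 : 0 ≤ C := (norm_nonneg _).trans (hC 0 (mem_closedBall_self (norm_nonneg _)))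
  refine le_of_forall_pos_le_add fun ε hε => ?_
  obtain ⟨ρ₀, h0, h1, hρ⟩ := e.proper (O := thickening (ε / (C + 1)) K) isOpen_thickening
    (self_subset_thickening (by positivity) K)
  set ρ := max ρ₀ ‖τ‖ with hρd
  have hρ1 : ρ < 1 := max_lt h1 (by simpa using hτ)
  have hρ0 : 0 < ρ := h0.trans_le (le_max_left _ _)
  have := le_re_of_sphere (a := -ε) hρ0
    (diffContOnCl_ball_of_subset hE (closedBall_subset_ball hρ1)) (fun w hw => ?_)
    (z := τ) (by simp [hρd])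
  · linarith
  rw [mem_sphere_zero_iff_norm] at hw
  have hw1 : w ∈ ball (0 : ℂ) 1 := by simpa [hw] using hρ1
  have hw0 : w ≠ 0 := norm_pos_iff.1 (hw ▸ hρ0)
  obtain ⟨z, hz, hzw⟩ := mem_thickening_iff.1 (hρ w (hw ▸ le_max_left _ _) (hw ▸ hρ1))
  have h2 := e.C1 hz (hsm' hw1)
  have h3 : (1 - s * e.χ (s * w) / e.χ w) / e.c (s * w)
      = (1 - e.ψ (s * w) * z) / e.c (s * w) - e.ψ (s * w) / e.c (s * w) * (e.g w - z) := by
    have := e.χ_ne hw1
    have := e.c_ne (hsm' hw1)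
    rw [g, e.ψ_eq w, e.ψ_eq (s * w)]
    field_simp
    ring
  have h4 : (e.ψ (s * w) / e.c (s * w) * (e.g w - z)).re ≤ ε := by
    refine (Complex.re_le_norm _).trans ?_
    rw [norm_mul, ← dist_eq_norm]
    calc _ ≤ C * (ε / (C + 1)) := by
          gcongr
          exact hC _ (hsm w hw1)
      _ ≤ ε := by
          rw [← mul_div_assoc, div_le_iff₀ (by positivity)]; nlinarith
  rw [h3, sub_re]
  simp only at h2
  linarith

theorem C2' {u v : ℂ} (hu : u ∈ ball (0 : ℂ) 1) (hu0 : u ≠ 0) (hv : ‖v‖ ≤ ‖u‖) :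
    0 ≤ ((1 - e.ψ v / e.ψ u) / e.c v).re := by
  have hu1 : ‖u‖ < 1 := by simpa using hu
  have hup : 0 < ‖u‖ := norm_pos_iff.2 hu0
  have hlt : ∀ v : ℂ, ‖v‖ < ‖u‖ → 0 ≤ ((1 - e.ψ v / e.ψ u) / e.c v).re := by
    intro v hv
    have h := e.C2 (s := v / u) (by rwa [norm_div, div_lt_one hup]) hu
    rw [div_mul_cancel₀ v hu0] at h
    have := e.χ_ne hu
    convert h using 4
    rw [e.ψ_eq u, e.ψ_eq v]
    field_simp
  have hcont : ContinuousOn (fun v => ((1 - e.ψ v / e.ψ u) / e.c v).re) (closedBall 0 ‖u‖) := by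
    refine continuous_re.comp_continuousOn (DifferentiableOn.continuousOn (𝕜 := ℂ) ?_)
    refine DifferentiableOn.mono ?_ (closedBall_subset_ball hu1)
    exact ((e.hψ.div_const _).const_sub 1).div e.diff_c fun w hw => e.c_ne hw
  rw [← closure_ball 0 hup.ne'] at hcont
  refine le_on_closure (f := fun _ => (0 : ℝ)) (fun w hw => hlt w (by simpa using hw))
    continuousOn_const hcont ?_
  rw [closure_ball 0 hup.ne']
  simpa using hv

theorem re_N_nonneg {u v : ℂ} (hu : u ∈ ball (0 : ℂ) 1) (hu0 : u ≠ 0) (hv : ‖v‖ ≤ ‖u‖) :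
    0 ≤ (e.N v u).re := by
  have h := re_inv_nonneg (e.C2' hu hu0 hv)
  have := e.ψ_ne hu hu0
  convert h using 2
  rw [N, inv_div, one_sub_div this, div_div_eq_mul_div]

theorem N_eq {u v : ℂ} (hu : u ∈ ball (0 : ℂ) 1) (hv : v ∈ ball (0 : ℂ) 1) (huv : v ≠ u) :
    e.N v u = u / (u - v) * (e.c v * e.χ u / dslope e.ψ u v) := by
  have h1 := sub_smul_dslope e.ψ u v
  have h2 := e.dslope_ne hu hv
  have h3 : u - v ≠ 0 := sub_ne_zero.2 huv.symm
  rw [N, show e.ψ u - e.ψ v = (u - v) * dslope e.ψ u v by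
    rw [smul_eq_mul] at h1; linear_combination h1, e.ψ_eq u]
  field_simp

theorem re_cauchy_sphere {u v : ℂ} (h : ‖v‖ = ‖u‖) (huv : v ≠ u) : (u / (u - v)).re = 1 / 2 := by
  have h3 : normSq (u - v) ≠ 0 := (normSq_pos.2 (sub_ne_zero.2 huv.symm)).ne'
  have h4 : normSq v = normSq u := by rw [← Complex.sq_norm, ← Complex.sq_norm, h]
  rw [Complex.div_re]
  field_simp
  simp only [normSq_apply, sub_re, sub_im] at h4 ⊢
  linarith

theorem poisson_pos {u v : ℂ} (h : ‖v‖ < ‖u‖) : 0 < 2 * (u / (u - v)).re - 1 := by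
  have huv : v ≠ u := by rintro rfl; exact lt_irrefl _ h
  have h3 : 0 < normSq (u - v) := normSq_pos.2 (sub_ne_zero.2 huv.symm)
  have h4 : normSq v < normSq u := by
    rw [← Complex.sq_norm, ← Complex.sq_norm]; nlinarith [norm_nonneg v]
  have h5 : 2 * (u / (u - v)).re - 1 = (normSq u - normSq v) / normSq (u - v) := by
    rw [Complex.div_re]
    field_simp
    simp only [normSq_apply, sub_re, sub_im]
    ring
  rw [h5]
  exact div_pos (by linarith) h3

/-- Positivity of the double-layer kernel. -/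
theorem k_nonneg {u v : ℂ} (hu : u ∈ ball (0 : ℂ) 1) (hv : ‖v‖ < ‖u‖) :
    0 ≤ 1 + 2 * (e.N v u - u / (u - v)).re := by
  have hu1 : ‖u‖ < 1 := by simpa using hu
  have hup : 0 < ‖u‖ := (norm_nonneg _).trans_lt hv
  have hu0 : u ≠ 0 := norm_pos_iff.1 hup
  set η : ℂ → ℂ := fun v => e.c v * e.χ u / dslope e.ψ u v with hη
  have hηd : DifferentiableOn ℂ η (ball 0 1) :=
    (e.diff_c.mul_const _).div (e.diff_dslope hu) fun w hw => e.dslope_ne hu hw
  have hηu : η u = 1 := by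
    have := e.χ_ne hu
    have := e.dψ_ne hu
    simp only [hη, dslope_same, c]
    field_simp
  set D : ℂ → ℂ := fun v => -u * dslope η u v with hD
  have hDd : DifferentiableOn ℂ D (ball 0 1) :=
    ((differentiableOn_dslope (isOpen_ball.mem_nhds hu)).2 hηd).const_mul _
  have hDe : ∀ w ∈ ball (0 : ℂ) 1, w ≠ u → D w = e.N w u - u / (u - w) := by
    intro w hw hwu
    have h3 : u - w ≠ 0 := sub_ne_zero.2 hwu.symm
    have h4 : w - u ≠ 0 := sub_ne_zero.2 hwu
    rw [e.N_eq hu hw hwu]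
    simp only [hD]
    rw [dslope_of_ne _ hwu, slope_def_field, hηu]
    simp only [hη]
    field_simp
    ring
  have hsph : ∀ w : ℂ, ‖w‖ = ‖u‖ → w ≠ u → -(1 / 2) ≤ (D w).re := by
    intro w hw hwu
    rw [hDe w (by simpa [hw] using hu1) hwu, sub_re, re_cauchy_sphere hw hwu]
    linarith [e.re_N_nonneg hu hu0 hw.le]
  have hDu : -(1 / 2) ≤ (D u).re := by
    have hne : ∀ t : ℝ, (1 - t * I : ℂ) ≠ 0 := fun t h => by simpa using congrArg re h
    have hw : Continuous fun t : ℝ => u * ((1 + t * I) / (1 - t * I)) :=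
      continuous_const.mul (Continuous.div (by fun_prop) (by fun_prop) hne)
    have h1 : Tendsto (fun t : ℝ => u * ((1 + t * I) / (1 - t * I))) (𝓝[≠] 0) (𝓝 u) := by
      have := (hw.tendsto 0).mono_left (nhdsWithin_le_nhds (s := {0}ᶜ))
      simpa using this
    have h2 := (continuous_re.tendsto _).comp
      ((hDd.continuousOn.continuousAt (isOpen_ball.mem_nhds hu)).tendsto.comp h1)
    refine ge_of_tendsto h2 ?_
    filter_upwards [self_mem_nhdsWithin] with t ht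
    refine hsph _ ?_ ?_
    · have : (1 - t * I : ℂ) = conj (1 + t * I) := by simp; ring
      rw [norm_mul, norm_div, this, RCLike.norm_conj, div_self, mul_one]
      rw [← RCLike.norm_conj, ← this]
      exact norm_ne_zero_iff.2 (hne t)
    · intro h
      have h3 : (1 + t * I) / (1 - t * I) = (1 : ℂ) := by
        exact mul_left_cancel₀ hu0 (h.trans (mul_one u).symm)
      rw [div_eq_one_iff_eq (hne t)] at h3
      have := congrArg im h3
      simp at this
      exact ht (by simpa using (by linarith : t = 0))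
  have huv : v ≠ u := by rintro rfl; exact lt_irrefl _ hv
  have h := le_re_of_sphere (a := -(1 / 2)) hup
    (diffContOnCl_ball_of_subset hDd (closedBall_subset_ball hu1)) (fun w hw => by
      rcases eq_or_ne w u with rfl | hwu
      · exact hDu
      · exact hsph w (by simpa using hw) hwu) (z := v) (by simpa using hv.le)
  rw [hDe v (by simpa using hv.trans hu1) huv] at h
  linarith

end Ext

end Crest.Agent.R132
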