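import Crest.Agent.R132.Main

/-! The completely bounded Crouzeix inequality for polynomials of Hilbert space operators. -/

set_option autoImplicit false

open Set Filter Metric Topology Complex Function
open scoped ComplexConjugate Real InnerProductSpace

namespace Crest.Agent.R132

theorem sum_bound_of_norm {m : Type*} [Fintype m] [DecidableEq m] (B : Matrix m m ℂ) {M : ℝ}
    (hM : ‖Matrix.toEuclideanCLM (n := m) (𝕜 := ℂ) B‖ ≤ M) (w : m → ℂ) :
    ∑ i, ‖∑ j, B i j * w j‖ ^ 2 ≤ M ^ 2 * ∑ j, ‖w j‖ ^ 2 := by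
  have h1 := (Matrix.toEuclideanCLM (n := m) (𝕜 := ℂ) B).le_of_opNorm_le hM (WithLp.toLp 2 w)
  have h2 : ‖Matrix.toEuclideanCLM (n := m) (𝕜 := ℂ) B (WithLp.toLp 2 w)‖ ^ 2
      ≤ (M * ‖WithLp.toLp 2 w‖) ^ 2 := by gcongr
  rw [mul_pow, Matrix.toEuclideanCLM_toLp, EuclideanSpace.norm_sq_eq,
    EuclideanSpace.norm_sq_eq] at h2
  exact h2

theorem hilbert {H : Type*} [NormedAddCommGroup H] [InnerProductSpace ℂ H] [CompleteSpace H]
    (A : H →L[ℂ] H) (m d : ℕ) (B : Fin (d + 1) → Matrix (Fin m) (Fin m) ℂ) (M : ℝ)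
    (hM : ∀ x : H, ‖x‖ = 1 →
      ‖Matrix.toEuclideanCLM (n := Fin m) (𝕜 := ℂ)
          (∑ k : Fin (d + 1), (inner ℂ x (A x)) ^ (k : ℕ) • B k)‖ ≤ M)
    (v : PiLp 2 (fun _ : Fin m => H)) :
    ‖(WithLp.toLp 2 (fun i : Fin m => ∑ j : Fin m, ∑ k : Fin (d + 1), B k i j • (A ^ (k : ℕ)) (v j))
        : PiLp 2 (fun _ : Fin m => H))‖ ≤ 2 * M * ‖v‖ := by
  rcases eq_or_ne v 0 with rfl | hv0
  · simp [Pi.zero_def]
  have hM0 : 0 ≤ M := by
    obtain ⟨j, hj⟩ : ∃ j, v j ≠ 0 := by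
      by_contra h
      push Not at h
      exact hv0 (by ext j; simp [h j])
    obtain ⟨_, ⟨x, hx, -⟩, -⟩ := exists_nr A hj
    exact (norm_nonneg _).trans (hM x hx)
  set V : Submodule ℂ H :=
    Submodule.span ℂ (range fun p : Fin (d + 1) × Fin m => (A ^ (p.1 : ℕ)) (v p.2)) with hV
  have : FiniteDimensional ℂ V := FiniteDimensional.span_of_finite ℂ (finite_range _)
  have hmem : ∀ k, k ≤ d → ∀ j, (A ^ k) (v j) ∈ V := fun k hk j =>
    Submodule.subset_span ⟨(⟨k, Nat.lt_succ_of_le hk⟩, j), rfl⟩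
  set A' : V →L[ℂ] V := V.orthogonalProjectionOnto ∘L A ∘L V.subtypeL with hA'
  set x : Fin m → V := fun j => ⟨v j, by simpa using hmem 0 (Nat.zero_le _) j⟩ with hx
  have hpow : ∀ k, k ≤ d → ∀ j, (((A' ^ k) (x j) : V) : H) = (A ^ k) (v j) := by
    intro k
    induction k with
    | zero => intro _ j; simp [hx]
    | succ k ih =>
      intro hk j
      have h1 := hmem (k + 1) hk j
      rw [pow_succ', mul_apply_eq_comp] at h1 ⊢
      rw [pow_succ', mul_apply_eq_comp, ← ih (Nat.le_of_succ_le hk) j] at *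
      simp only [hA', ContinuousLinearMap.comp_apply, Submodule.subtypeL_apply]
      rw [Submodule.coe_orthogonalProjectionOnto_apply]
      exact Submodule.starProjection_eq_self_iff.2 (by simpa using h1)
  set P : ℂ → Matrix (Fin m) (Fin m) ℂ := fun σ => ∑ k : Fin (d + 1), σ ^ (k : ℕ) • B k with hP
  have hnr : ∀ σ ∈ nr A', ‖Matrix.toEuclideanCLM (n := Fin m) (𝕜 := ℂ) (P σ)‖ ≤ M := by
    rintro σ ⟨w, hw, rfl⟩
    have : ⟪w, A' w⟫_ℂ = ⟪(w : H), A w⟫_ℂ := by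
      simp [hA']
    rw [this]
    exact hM w hw
  have hcont : Continuous fun σ => ‖Matrix.toEuclideanCLM (n := Fin m) (𝕜 := ℂ) (P σ)‖ := by
    simp only [hP, map_sum, map_smul]
    fun_prop
  refine le_of_forall_pos_le_add fun ε hε => ?_
  have hvp : 0 < ‖v‖ := norm_pos_iff.2 hv0
  set ε' := ε / (2 * ‖v‖) with hε'
  have hε'0 : 0 < ε' := by positivity
  obtain ⟨δ, hδ, hδO⟩ := (isCompact_nr A').exists_thickening_subset_open
    (isOpen_lt hcont (continuous_const (y := M + ε')))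
    (fun σ hσ => (hnr σ hσ).trans_lt (lt_add_of_pos_right M hε'0))
  have h := crouzeix (A := A') isOpen_thickening ((convex_nr A').thickening δ)
    (self_subset_thickening hδ _) (v := fun i j σ => P σ i j)
    (Q := fun i j => ∑ k : Fin (d + 1), B k i j • A' ^ (k : ℕ))
    (fun i j => (Calc.sum Finset.univ fun (k : Fin (d + 1)) _ => (Calc.id.pow (k : ℕ)).smul (B k i j)).congr
      (fun σ _ => by simp [hP, Matrix.sum_apply, mul_comm]) rfl)
    (M := M + ε') (fun σ hσ => sum_bound_of_norm _ (le_of_lt (hδO hσ))) x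
  have e1 : ∑ j, ‖x j‖ ^ 2 = ‖v‖ ^ 2 := by rw [PiLp.norm_sq_eq_of_L2]; rfl
  have e2 : ∀ i, ‖∑ j, (∑ k : Fin (d + 1), B k i j • A' ^ (k : ℕ)) (x j)‖
      = ‖∑ j : Fin m, ∑ k : Fin (d + 1), B k i j • (A ^ (k : ℕ)) (v j)‖ := fun i => by
    rw [Submodule.coe_norm]
    simp only [_root_.sum_apply, smul_apply, AddSubmonoidClass.coe_finsetSum,
      Submodule.coe_smul, hpow _ (Nat.le_of_lt_succ (Fin.is_lt _))]
  simp only [e1, e2] at h
  have h2 : 2 * M * ‖v‖ + ε = 2 * (M + ε') * ‖v‖ := by rw [hε']; field_simp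
  rw [h2, ← sq_le_sq₀ (norm_nonneg _) (by positivity), PiLp.norm_sq_eq_of_L2]
  calc _ ≤ _ := h
    _ = _ := by ring

end Crest.Agent.R132
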