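import Crest.Agent.R132.Ext

/-! The key scalar inequality on level curves of the exterior map. -/

set_option autoImplicit false

open Set Filter Metric Topology Complex Function
open scoped ComplexConjugate Real
open Crest.Agent.Riemann

namespace Crest.Agent.R132

theorem norm_cm {r : ℝ} (hr : 0 ≤ r) (θ : ℝ) : ‖circleMap 0 r θ‖ = r := by
  simp [abs_of_nonneg hr]

theorem cm_mem {r : ℝ} (hr : 0 ≤ r) (hr1 : r < 1) (θ : ℝ) : circleMap 0 r θ ∈ ball (0 : ℂ) 1 := by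
  rw [mem_ball_zero_iff, norm_cm hr]; exact hr1

theorem cont_cm {E : Type*} [TopologicalSpace E] {f : ℂ → E} {r : ℝ} (hr : 0 ≤ r)
    (hf : ContinuousOn f (sphere 0 r)) : Continuous fun θ => f (circleMap 0 r θ) :=
  hf.comp_continuous (continuous_circleMap 0 r) (circleMap_mem_sphere 0 hr)

theorem cont_cm' {E : Type*} [NormedAddCommGroup E] [NormedSpace ℂ E] {f : ℂ → E} {r : ℝ}
    (hr : 0 ≤ r) (hr1 : r < 1) (hf : DifferentiableOn ℂ f (ball 0 1)) :
    Continuous fun θ => f (circleMap 0 r θ) :=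
  cont_cm hr (hf.continuousOn.mono (sphere_subset_ball hr1))

theorem mean_value {E : Type*} [NormedAddCommGroup E] [NormedSpace ℂ E] [CompleteSpace E]
    {f : ℂ → E} {r : ℝ} (hr : 0 < r) {V : Set ℂ} (hf : DifferentiableOn ℂ f V)
    (hV : closedBall 0 r ⊆ V) : avg (fun θ => f (circleMap 0 r θ)) = f 0 := by
  rw [← circleAverage_eq_avg]
  refine DiffContOnCl.circleAverage ?_
  rw [abs_of_pos hr]
  exact diffContOnCl_ball_of_subset hf hV

theorem cauchy_value {f : ℂ → ℂ} {r : ℝ} (hr : 0 < r) {V : Set ℂ} (hf : DifferentiableOn ℂ f V)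
    (hV : closedBall 0 r ⊆ V) {w : ℂ} (hw : ‖w‖ < r) :
    avg (fun θ => circleMap 0 r θ / (circleMap 0 r θ - w) * f (circleMap 0 r θ)) = f w := by
  have h := DiffContOnCl.circleAverage_smul_div (f := f) (c := 0) (R := r) (w := w)
    (by rw [abs_of_pos hr]; exact diffContOnCl_ball_of_subset hf hV)
    (by simpa [abs_of_pos hr] using hw)
  simpa [circleAverage_eq_avg] using h

theorem cauchy_inner {f : ℂ → ℂ} {r : ℝ} (hr : 0 < r) (hf : DifferentiableOn ℂ f (ball 0 1))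
    {u : ℂ} (hu : r < ‖u‖) (hu1 : ‖u‖ < 1) :
    avg (fun θ => u / (u - circleMap 0 r θ) * f (circleMap 0 r θ)) = f 0 := by
  have hu0 : u ≠ 0 := norm_pos_iff.1 (hr.trans hu)
  have h := mean_value (f := fun v => u / (u - v) * f v) hr (V := ball 0 ‖u‖)
    (DifferentiableOn.mul (DifferentiableOn.div (by fun_prop) (by fun_prop) fun v hv h => by
      rw [sub_eq_zero.1 h] at hv; simp at hv) (hf.mono (ball_subset_ball hu1.le)))
    (closedBall_subset_ball hu)
  simpa [hu0] using h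

namespace Ext

variable {K : Set ℂ} (e : Ext K)

theorem sub_ne {u v : ℂ} (hu : ‖u‖ < 1) (hv : ‖v‖ < ‖u‖) : e.ψ u - e.ψ v ≠ 0 := fun h => by
  have := e.inj (by simpa using hu) (by simpa using hv.trans hu) (sub_eq_zero.1 h)
  rw [this] at hv
  exact lt_irrefl _ hv

theorem N_inner {f : ℂ → ℂ} {r : ℝ} (hr : 0 < r) (hf : DifferentiableOn ℂ f (ball 0 1))
    {u : ℂ} (hu : r < ‖u‖) (hu1 : ‖u‖ < 1) :
    avg (fun θ => e.N (circleMap 0 r θ) u * f (circleMap 0 r θ)) = f 0 := by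
  have hu0 : u ≠ 0 := norm_pos_iff.1 (hr.trans hu)
  have hsub : ball (0 : ℂ) ‖u‖ ⊆ ball 0 1 := ball_subset_ball hu1.le
  have h := mean_value (f := fun v => e.N v u * f v) hr (V := ball 0 ‖u‖)
    (DifferentiableOn.mul (DifferentiableOn.div ((e.diff_c.mono hsub).mul_const _)
      ((e.hψ.mono hsub).const_sub _) fun v hv => e.sub_ne hu1 (by simpa using hv)) (hf.mono hsub))
    (closedBall_subset_ball hu)
  have h2 := e.ψ_ne (by simpa using hu1) hu0
  rw [h, N, e.c_zero, e.ψ_zero, sub_zero, one_mul, div_self h2, one_mul]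

theorem N_outer {f : ℂ → ℂ} {r : ℝ} (hr1 : r < 1) (hf : DifferentiableOn ℂ f (ball 0 1))
    {v : ℂ} (hv : ‖v‖ < r) :
    avg (fun θ => e.N v (circleMap 0 r θ) * f (circleMap 0 r θ)) = f v := by
  have hr : 0 < r := (norm_nonneg _).trans_lt hv
  have hv1 : v ∈ ball (0 : ℂ) 1 := by simpa using hv.trans hr1
  have h := cauchy_value (f := fun u => e.c v * e.χ u / dslope e.ψ v u * f u) hr (V := ball 0 1)
    (((e.diff_χ.const_mul _).div (e.diff_dslope hv1) fun w hw => e.dslope_ne hv1 hw).mul hf)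
    (closedBall_subset_ball hr1) hv
  have h1 : e.c v * e.χ v / dslope e.ψ v v = 1 := by
    have := e.χ_ne hv1
    have := e.dψ_ne hv1
    simp only [dslope_same, c]
    field_simp
  simp only [h1, one_mul] at h
  rw [← h]
  congr 1
  ext θ
  have hu := cm_mem hr.le hr1 θ
  have huv : v ≠ circleMap 0 r θ := by
    intro h; rw [h, norm_cm hr.le] at hv; exact lt_irrefl _ hv
  rw [e.N_eq hu hv1 huv, ← mul_assoc]
  congr 3
  rw [dslope_of_ne _ huv, dslope_of_ne _ huv.symm, slope_comm]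

theorem hasDerivAt_g {u : ℂ} (hu : u ∈ ball (0 : ℂ) 1) (hu0 : u ≠ 0) :
    HasDerivAt e.g (-(e.n u / u)) u := by
  have h := (e.hψ.differentiableAt (isOpen_ball.mem_nhds hu)).hasDerivAt.inv (e.ψ_ne hu hu0)
  refine HasDerivAt.congr_deriv h ?_
  have := e.χ_ne hu
  rw [n, c, g, e.ψ_eq u]
  field_simp

theorem avg_n {E : Type*} [NormedAddCommGroup E] [NormedSpace ℂ E] [CompleteSpace E]
    {W : Set ℂ} (hW : IsOpen W) (hWc : Convex ℝ W) {H : ℂ → E} (hH : DifferentiableOn ℂ H W)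
    {ρ : ℝ} (hρ : 0 < ρ) (hρ1 : ρ < 1) (hg : ∀ u ∈ sphere (0 : ℂ) ρ, e.g u ∈ W) :
    avg (fun θ => e.n (circleMap 0 ρ θ) • H (e.g (circleMap 0 ρ θ))) = 0 := by
  have hne : ∀ u ∈ sphere (0 : ℂ) ρ, u ≠ 0 := by
    rintro u hu rfl
    simp [hρ.ne] at hu
  have h := circleAverage_curve hW hWc hH.neg hρ
    (fun u hu => (e.hasDerivAt_g (sphere_subset_ball hρ1 hu) (hne u hu)).differentiableAt) hg
  rw [← h, circleAverage_eq_avg]
  congr 1
  ext θ
  have hu := circleMap_mem_sphere 0 hρ.le θ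
  have := hne _ hu
  rw [(e.hasDerivAt_g (sphere_subset_ball hρ1 hu) this).deriv, Pi.neg_apply, smul_neg, ← neg_smul]
  congr 1
  field_simp

theorem N_eq' {u v : ℂ} (hu : ‖u‖ < 1) (hv : ‖v‖ < ‖u‖) (hv0 : v ≠ 0) :
    e.N v u = e.n v / (e.g v - e.g u) := by
  have h1 := e.sub_ne hu hv
  have h2 := e.ψ_ne (u := u) (by simpa using hu) (norm_pos_iff.1 ((norm_nonneg _).trans_lt hv))
  have h3 := e.ψ_ne (u := v) (by simpa using hv.trans hu) hv0
  rw [N, n, g, g, inv_sub_inv h3 h2]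
  field_simp

theorem re_N_pos {u v : ℂ} (hu : ‖u‖ < 1) (hv : ‖v‖ < ‖u‖) : 0 < (e.N v u).re := by
  have h1 := e.k_nonneg (u := u) (by simpa using hu) hv
  have h2 := poisson_pos hv
  rw [sub_re] at h1
  linarith

theorem avg_N_n {O : Set ℂ} (hO : IsOpen O) (hOc : Convex ℝ O) {H : ℂ → ℂ}
    (hH : DifferentiableOn ℂ H O) {ρ : ℝ} (hρ1 : ρ < 1) (hg : ∀ u ∈ sphere (0 : ℂ) ρ, e.g u ∈ O)
    {v : ℂ} (hv : ‖v‖ < ρ) (hv0 : v ≠ 0) :
    avg (fun θ => e.N v (circleMap 0 ρ θ)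
      * (e.n (circleMap 0 ρ θ) * H (e.g (circleMap 0 ρ θ)))) = 0 := by
  have hρ : 0 < ρ := (norm_nonneg _).trans_lt hv
  set P : Set ℂ := {σ | (σ / e.n v).re < (e.g v / e.n v).re} with hP
  have hPo : IsOpen P := isOpen_lt (by fun_prop) continuous_const
  have hPc : Convex ℝ P := convex_halfSpace_lt (f := fun σ : ℂ => (σ / e.n v).re)
    ⟨fun x y => by rw [add_div, add_re], fun t x => by
      rw [real_smul, mul_div_assoc, re_ofReal_mul, smul_eq_mul]⟩ _
  have h := e.avg_n (W := O ∩ P) (hO.inter hPo) (hOc.inter hPc)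
    (H := fun σ => e.n v / (e.g v - σ) * H σ)
    (DifferentiableOn.mul (DifferentiableOn.div (by fun_prop) (by fun_prop) fun σ hσ h => by
      have := hσ.2
      rw [← sub_eq_zero.1 h] at this
      exact lt_irrefl _ (show (e.g v / e.n v).re < _ from this)) (hH.mono inter_subset_left))
    hρ hρ1 (fun u hu => ⟨hg u hu, by
      rw [mem_sphere_zero_iff_norm] at hu
      have h1 := re_inv_pos (e.re_N_pos (u := u) (v := v) (hu ▸ hρ1) (hu ▸ hv))
      rw [e.N_eq' (hu ▸ hρ1) (hu ▸ hv) hv0, inv_div, sub_div, sub_re] at h1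
      exact sub_pos.1 h1⟩)
  refine Eq.trans ?_ h
  congr 1
  ext θ
  rw [e.N_eq' (by rw [norm_cm hρ.le]; exact hρ1) (by rw [norm_cm hρ.le]; exact hv) hv0, smul_eq_mul]
  ring

theorem cont_g {ρ : ℝ} (hρ : 0 < ρ) (hρ1 : ρ < 1) : Continuous fun θ => e.g (circleMap 0 ρ θ) :=
  (cont_cm' hρ.le hρ1 e.hψ).inv₀ fun θ =>
    e.ψ_ne (cm_mem hρ.le hρ1 θ) (circleMap_ne_center hρ.ne')

theorem cont_n {ρ : ℝ} (hρ : 0 < ρ) (hρ1 : ρ < 1) : Continuous fun θ => e.n (circleMap 0 ρ θ) :=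
  (cont_cm' hρ.le hρ1 e.diff_c).mul (e.cont_g hρ hρ1)

theorem key_lt {O : Set ℂ} (hO : IsOpen O) (hOc : Convex ℝ O) {ρ : ℝ} (hρ1 : ρ < 1)
    (hg : ∀ u ∈ sphere (0 : ℂ) ρ, e.g u ∈ O) {a H : ℂ → ℂ}
    (ha : DifferentiableOn ℂ a (ball 0 1)) (hH : DifferentiableOn ℂ H O) {r : ℝ} (hr : 0 < r)
    (hrρ : r < ρ) :
    avg (fun η => ‖a (circleMap 0 r η)‖ ^ 2) + ‖a 0‖ ^ 2 ≤ 2 * avg (fun θ =>
      ‖a (circleMap 0 ρ θ) + e.n (circleMap 0 ρ θ) * H (e.g (circleMap 0 ρ θ))‖ ^ 2) := by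
  have hρ : 0 < ρ := hr.trans hrρ
  have hr1 : r < 1 := hrρ.trans hρ1
  have nu : ∀ θ, ‖circleMap 0 ρ θ‖ = ρ := norm_cm hρ.le
  have nv : ∀ θ, ‖circleMap 0 r θ‖ = r := norm_cm hr.le
  have hlt : ∀ η θ, ‖circleMap 0 r η‖ < ‖circleMap 0 ρ θ‖ := fun η θ => by rw [nu, nv]; exact hrρ
  have hne : ∀ η θ, circleMap 0 ρ θ - circleMap 0 r η ≠ 0 := fun η θ h => by
    have := hlt η θ
    rw [sub_eq_zero.1 h] at this
    exact lt_irrefl _ this
  have c1 := cont_cm' hr.le hr1 e.diff_c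
  have c2 := cont_cm' hr.le hr1 e.hψ
  have c3 := cont_cm' hρ.le hρ1 e.hψ
  have c4 := cont_cm' hρ.le hρ1 ha
  have c5 := e.cont_n hρ hρ1
  have c6 : Continuous fun θ => H (e.g (circleMap 0 ρ θ)) :=
    hH.continuousOn.comp_continuous (e.cont_g hρ hρ1) fun θ => hg _ (circleMap_mem_sphere 0 hρ.le θ)
  have cN : Continuous (uncurry fun η θ => e.N (circleMap 0 r η) (circleMap 0 ρ θ)) :=
    Continuous.div ((c1.comp continuous_fst).mul (c3.comp continuous_snd))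
      ((c3.comp continuous_snd).sub (c2.comp continuous_fst))
      fun p => e.sub_ne (by rw [nu]; exact hρ1) (hlt p.1 p.2)
  have cC : Continuous (uncurry fun η θ => circleMap 0 ρ θ / (circleMap 0 ρ θ - circleMap 0 r η)) :=
    Continuous.div (by fun_prop) (by fun_prop) fun p => hne p.1 p.2
  set s : ℝ := r ^ 2 / ρ ^ 2 with hs
  have hs0 : 0 < s := by positivity
  have hs1 : s < 1 := by rw [hs, div_lt_one (by positivity)]; nlinarith
  have hF : DifferentiableOn ℂ (fun u => a (s * u)) (ball 0 1) := by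
    refine ha.comp (by fun_prop) fun u hu => ?_
    rw [mem_ball_zero_iff] at hu ⊢
    rw [norm_mul, Complex.norm_real, Real.norm_of_nonneg hs0.le]
    nlinarith [norm_nonneg u]
  have h1 : DifferentiableOn ℂ (fun _ : ℂ => (1 : ℂ)) (ball 0 1) := differentiableOn_const _
  have c7 : Continuous fun θ => e.n (circleMap 0 ρ θ) * H (e.g (circleMap 0 ρ θ)) := c5.mul c6
  refine key_abs (F := fun θ => a (s * circleMap 0 ρ θ))
    (G := fun θ => a (circleMap 0 ρ θ) + e.n (circleMap 0 ρ θ) * H (e.g (circleMap 0 ρ θ)))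
    cN cC (cont_cm' hr.le hr1 ha) (c4.add c7)
    (fun θ => e.N_inner hr ha (by rw [nu]; exact hrρ) (by rw [nu]; exact hρ1))
    (fun θ => cauchy_inner hr ha (by rw [nu]; exact hrρ) (by rw [nu]; exact hρ1))
    (mean_value hr ha (closedBall_subset_ball hr1))
    (fun θ => by simpa using e.N_inner hr h1 (by rw [nu θ]; exact hrρ) (by rw [nu]; exact hρ1))
    (fun θ => by simpa using cauchy_inner hr h1 (by rw [nu θ]; exact hrρ) (by rw [nu]; exact hρ1))
    (fun η => by simpa using e.N_outer hρ1 h1 (by rw [nv η]; exact hrρ))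
    (fun η => by
      simpa using cauchy_value hρ h1 (closedBall_subset_ball hρ1) (by rw [nv η]; exact hrρ))
    (fun η => ?_) ?_ (fun η => ?_) ?_ (fun θ => ?_)
    (fun η θ => (poisson_pos (hlt η θ)).le)
    (fun η θ => e.k_nonneg (cm_mem hρ.le hρ1 θ) (hlt η θ))
  · have cNη : Continuous fun θ => e.N (circleMap 0 r η) (circleMap 0 ρ θ) :=
      Continuous.uncurry_left (f := fun η θ => e.N (circleMap 0 r η) (circleMap 0 ρ θ)) η cN
    simp only [mul_add]
    rw [avg_add (cNη.fun_mul c4) (cNη.fun_mul c7), e.N_outer hρ1 ha (by rw [nv]; exact hrρ),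
      e.avg_N_n hO hOc hH hρ1 hg (by rw [nv]; exact hrρ) (circleMap_ne_center hr.ne'), add_zero]
  · rw [avg_add c4 c7, mean_value hρ ha (closedBall_subset_ball hρ1)]
    have := e.avg_n hO hOc hH hρ hρ1 hg
    simp only [smul_eq_mul] at this
    rw [this, add_zero]
  · rw [e.N_outer hρ1 hF (by rw [nv]; exact hrρ),
      cauchy_value hρ hF (closedBall_subset_ball hρ1) (by rw [nv]; exact hrρ)]
  · simpa using mean_value hρ hF (closedBall_subset_ball hρ1)
  · have hw : ‖(s : ℂ) * circleMap 0 ρ θ‖ < r := by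
      rw [norm_mul, Complex.norm_real, Real.norm_of_nonneg hs0.le, nu, hs, div_mul_eq_mul_div,
        div_lt_iff₀ (by positivity)]
      nlinarith [mul_pos hr hρ]
    rw [← cauchy_value hr ha (closedBall_subset_ball hr1) hw]
    congr 1
    ext η
    congr 1
    have h2 : circleMap 0 r η - s * circleMap 0 ρ θ ≠ 0 := fun h => by
      rw [← sub_eq_zero.1 h, nv] at hw
      exact lt_irrefl _ hw
    have h3 : conj (circleMap 0 ρ θ - circleMap 0 r η) ≠ 0 := by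
      rw [map_ne_zero]; exact hne η θ
    rw [map_div₀, div_eq_div_iff h3 h2, map_sub]
    have h4 := Complex.conj_mul' (circleMap 0 ρ θ)
    have h5 := Complex.conj_mul' (circleMap 0 r η)
    rw [nu] at h4
    rw [nv] at h5
    have h6 : (s : ℂ) * ρ ^ 2 = r ^ 2 := by
      have : (ρ : ℂ) ≠ 0 := by exact_mod_cast hρ.ne'
      rw [hs]; push_cast; field_simp
    linear_combination (-(s : ℂ)) * h4 + h5 - h6

/-- The key scalar inequality. -/
theorem key {O : Set ℂ} (hO : IsOpen O) (hOc : Convex ℝ O) {ρ : ℝ} (hρ : 0 < ρ) (hρ1 : ρ < 1)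
    (hg : ∀ u ∈ sphere (0 : ℂ) ρ, e.g u ∈ O) {a H : ℂ → ℂ}
    (ha : DifferentiableOn ℂ a (ball 0 1)) (hH : DifferentiableOn ℂ H O) :
    avg (fun η => ‖a (circleMap 0 ρ η)‖ ^ 2) + ‖a 0‖ ^ 2 ≤ 2 * avg (fun θ =>
      ‖a (circleMap 0 ρ θ) + e.n (circleMap 0 ρ θ) * H (e.g (circleMap 0 ρ θ))‖ ^ 2) := by
  have hc : ContinuousOn (Real.circleAverage (fun u => ‖a u‖ ^ 2) 0) (Ioo 0 1) := by
    refine Real.ContinuousOn.circleAverage ?_ fun r hr => hr.1.le
    refine (ha.continuousOn.norm.pow 2).mono fun z hz => ?_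
    simpa using hz.2
  have h1 : Tendsto (fun r => avg (fun η => ‖a (circleMap 0 r η)‖ ^ 2) + ‖a 0‖ ^ 2) (𝓝[<] ρ)
      (𝓝 (avg (fun η => ‖a (circleMap 0 ρ η)‖ ^ 2) + ‖a 0‖ ^ 2)) :=
    ((hc.continuousAt (Ioo_mem_nhds hρ hρ1)).tendsto.mono_left nhdsWithin_le_nhds).add_const _
  refine le_of_tendsto h1 ?_
  filter_upwards [Ioo_mem_nhdsLT hρ] with r hr
  exact e.key_lt hO hOc hρ1 hg ha hH hr.1 hr.2

end Ext

end Crest.Agent.R132
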