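import Crest.Agent.R132.Key
import Crest.Agent.R132.Calc

/-! The completely bounded Crouzeix inequality in finite dimension. -/

set_option autoImplicit false

open Set Filter Metric Topology Complex Function
open scoped ComplexConjugate Real InnerProductSpace ComplexOrder

namespace Crest.Agent.R132

variable {H : Type*} [NormedAddCommGroup H] [InnerProductSpace ℂ H]

/-- The numerical range of an operator. -/
def nr (A : H →L[ℂ] H) : Set ℂ := {z | ∃ x : H, ‖x‖ = 1 ∧ z = ⟪x, A x⟫_ℂ}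

theorem exists_nr (A : H →L[ℂ] H) {w : H} (hw : w ≠ 0) :
    ∃ z ∈ nr A, ⟪w, A w⟫_ℂ = ((‖w‖ ^ 2 : ℝ) : ℂ) * z := by
  have hn : (‖w‖ : ℂ) ≠ 0 := by exact_mod_cast norm_ne_zero_iff.2 hw
  refine ⟨_, ⟨(‖w‖ : ℂ)⁻¹ • w, ?_, rfl⟩, ?_⟩
  · rw [norm_smul, norm_inv, Complex.norm_real, norm_norm, inv_mul_cancel₀ (norm_ne_zero_iff.2 hw)]
  · rw [map_smul, inner_smul_left, inner_smul_right, map_inv₀, conj_ofReal]
    push_cast
    field_simp

/-- The signed Hilbert--Schmidt inequality for a positive semidefinite block matrix. -/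
theorem signed_hs {ι : Type*} [Fintype ι] (R : H →L[ℂ] H) (hR : ∀ x, 0 ≤ (⟪x, R x⟫_ℂ).re)
    (E : ι → H) (s : ι → ℝ) :
    0 ≤ ∑ a, ∑ b, s a * s b * ‖⟪E a, R (E b)⟫_ℂ + conj ⟪E b, R (E a)⟫_ℂ‖ ^ 2 := by
  set M : Matrix ι ι ℂ := Matrix.of fun a b => ⟪E a, R (E b)⟫_ℂ + conj ⟪E b, R (E a)⟫_ℂ with hM
  have hMh : ∀ a b, M b a = conj (M a b) := fun a b => by simp [hM, add_comm]
  have hP : M.PosSemidef := by
    refine Matrix.PosSemidef.of_dotProduct_mulVec_nonneg ?_ fun w => ?_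
    · ext a b
      simp [hM, add_comm]
    · have h1 : star w ⬝ᵥ M.mulVec w = ⟪∑ b, w b • E b, R (∑ b, w b • E b)⟫_ℂ
          + conj ⟪∑ b, w b • E b, R (∑ b, w b • E b)⟫_ℂ := by
        simp only [map_sum, map_smul, sum_inner, inner_sum, inner_smul_left, inner_smul_right,
          map_mul, conj_conj, dotProduct, Matrix.mulVec, hM, Matrix.of_apply, Pi.star_apply,
          RCLike.star_def, Finset.mul_sum, add_mul, mul_add, Finset.sum_add_distrib]
        congr 1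
        · rw [Finset.sum_comm]
          exact Finset.sum_congr rfl fun a _ => Finset.sum_congr rfl fun b _ => by ring
        · exact Finset.sum_congr rfl fun a _ => Finset.sum_congr rfl fun b _ => by ring
      rw [h1, Complex.add_conj]
      exact_mod_cast mul_nonneg zero_le_two (hR _)
  have h2 := (hP.hadamard hP.transpose).dotProduct_mulVec_nonneg (fun a => (s a : ℂ))
  have h3 : star (fun a => (s a : ℂ)) ⬝ᵥ (Matrix.hadamard M M.transpose).mulVec (fun a => (s a : ℂ))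
      = ((∑ a, ∑ b, s a * s b * ‖M a b‖ ^ 2 : ℝ) : ℂ) := by
    simp only [dotProduct, Matrix.mulVec, Matrix.hadamard_apply, Matrix.transpose_apply,
      Pi.star_apply, RCLike.star_def, conj_ofReal, Finset.mul_sum]
    push_cast
    refine Finset.sum_congr rfl fun a _ => Finset.sum_congr rfl fun b _ => ?_
    rw [hMh a b, Complex.mul_conj']
    ring
  rw [h3] at h2
  exact_mod_cast h2

variable [FiniteDimensional ℂ H]

theorem isUnit_of_nr (A : H →L[ℂ] H) {y : ℂ} (hy : ∀ z ∈ nr A, y * z ≠ 1) :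
    IsUnit (1 - y • A) := by
  have := FiniteDimensional.complete ℂ H
  rw [ContinuousLinearMap.isUnit_iff_isUnit_toLinearMap, LinearMap.isUnit_iff_ker_eq_bot,
    LinearMap.ker_eq_bot']
  intro w hw
  by_contra hw0
  obtain ⟨z, hz, e⟩ := exists_nr A hw0
  refine hy z hz ?_
  have h1 : w = y • A w := by simpa [sub_eq_zero] using hw
  have h2 : ⟪w, w⟫_ℂ = y * ⟪w, A w⟫_ℂ := by rw [← inner_smul_right, ← h1]
  have hn : ((‖w‖ ^ 2 : ℝ) : ℂ) ≠ 0 := by exact_mod_cast pow_ne_zero 2 (norm_ne_zero_iff.2 hw0)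
  rw [e, inner_self_eq_norm_sq_to_K] at h2
  apply mul_left_cancel₀ hn
  push_cast at h2 ⊢
  linear_combination -h2

namespace Ext

variable {K : Set ℂ} (e : Ext K)

/-- The normalised resolvent along the exterior map. -/
noncomputable def R (A : H →L[ℂ] H) (u : ℂ) : H →L[ℂ] H := e.c u • Ring.inverse (1 - e.ψ u • A)

variable {A : H →L[ℂ] H} (hA : nr A ⊆ K)
include hA

theorem isUnit_ψ {u : ℂ} (hu : u ∈ ball (0 : ℂ) 1) : IsUnit (1 - e.ψ u • A) :=
  isUnit_of_nr A fun z hz => e.mψ hu z (hA hz)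

theorem diff_R : DifferentiableOn ℂ (e.R A) (ball 0 1) := by
  have := FiniteDimensional.complete ℂ H
  exact e.diff_c.smul (DifferentiableOn.inverse ((e.hψ.smul_const A).const_sub 1)
    fun u hu => e.isUnit_ψ hA hu)

omit hA [FiniteDimensional ℂ H] in
theorem R_zero : e.R A 0 = 1 := by simp [R, e.c_zero, e.ψ_zero]

theorem re_R {u : ℂ} (hu : u ∈ ball (0 : ℂ) 1) (x : H) : 0 ≤ (⟪x, e.R A u x⟫_ℂ).re := by
  set w := e.R A u x with hw
  rcases eq_or_ne w 0 with h0 | h0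
  · simp [h0]
  have hc := e.c_ne hu
  have h1 : x = (e.c u)⁻¹ • (w - e.ψ u • A w) := by
    have h2 : (1 - e.ψ u • A) w = e.c u • x := by
      rw [hw, R, smul_apply, map_smul, ← mul_apply_eq_comp,
        Ring.mul_inverse_cancel _ (e.isUnit_ψ hA hu), one_apply_eq_self]
    have h3 : w - e.ψ u • A w = e.c u • x := by simpa using h2
    rw [h3, smul_smul, inv_mul_cancel₀ hc, one_smul]
  obtain ⟨z, hz, ez⟩ := exists_nr A h0
  have h4 : ⟪w, x⟫_ℂ = ((‖w‖ ^ 2 : ℝ) : ℂ) * ((1 - e.ψ u * z) / e.c u) := by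
    conv_lhs => rw [h1]
    rw [inner_smul_right, inner_sub_right, inner_smul_right, ez, inner_self_eq_norm_sq_to_K]
    push_cast
    field_simp
    simp only [coe_algebraMap]
    ring
  rw [← inner_conj_symm, conj_re, h4, re_ofReal_mul]
  exact mul_nonneg (sq_nonneg _) (e.C1 (hA hz) hu)

theorem R_mul {u : ℂ} (hu : u ∈ ball (0 : ℂ) 1) (hu0 : u ≠ 0) :
    e.R A u * (e.g u • 1 - A) = e.n u • 1 ∧ (e.g u • 1 - A) * e.R A u = e.n u • 1 := by
  have h1 : e.g u • (1 : H →L[ℂ] H) - A = e.g u • (1 - e.ψ u • A) := by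
    rw [smul_sub, smul_smul, g, inv_mul_cancel₀ (e.ψ_ne hu hu0), one_smul]
  rw [h1, R, n]
  constructor
  · rw [smul_mul_smul_comm, Ring.inverse_mul_cancel _ (e.isUnit_ψ hA hu)]
  · rw [smul_mul_smul_comm, Ring.mul_inverse_cancel _ (e.isUnit_ψ hA hu), mul_comm]

include e in
theorem core {O : Set ℂ} (hO : IsOpen O) (hOc : Convex ℝ O) (hKO : K ⊆ O)
    {m : Type*} [Fintype m] {v : m → m → ℂ → ℂ} {Q : m → m → H →L[ℂ] H}
    (hQ : ∀ i j, Calc A O (v i j) (Q i j)) {M : ℝ}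
    (hM : ∀ σ ∈ O, ∀ w : m → ℂ, ∑ i, ‖∑ j, v i j σ * w j‖ ^ 2 ≤ M ^ 2 * ∑ j, ‖w j‖ ^ 2)
    (hM' : ∀ σ ∈ O, ∀ w : m → ℂ, ∑ j, ‖∑ i, v i j σ * w i‖ ^ 2 ≤ M ^ 2 * ∑ i, ‖w i‖ ^ 2)
    {x y : m → H} {κ : ℝ} (hx : ∀ i, ∑ j, Q i j (x j) = (κ : ℂ) • y i)
    (hy : ∀ j z, ∑ i, ⟪y i, Q i j z⟫_ℂ = κ * ⟪x j, z⟫_ℂ) (hy0 : ∃ i, y i ≠ 0) :
    κ ^ 2 ≤ 4 * M ^ 2 := by
  obtain ⟨ρ, hρ, hρ1, hg⟩ := e.proper hO hKO
  have hg' : ∀ u ∈ sphere (0 : ℂ) ρ, e.g u ∈ O := fun u hu => by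
    rw [mem_sphere_zero_iff_norm] at hu
    exact hg u hu.ge (hu ▸ hρ1)
  choose h hh hh' using fun i j => (hQ i j).2.2
  set α : H → H → ℂ → ℂ := fun a b u => ⟪a, e.R A u b⟫_ℂ with hα
  have dα : ∀ a b, DifferentiableOn ℂ (α a b) (ball 0 1) := fun a b =>
    (innerSL ℂ a).differentiable.comp_differentiableOn
      ((e.diff_R hA).clm_apply (differentiableOn_const b))
  have cα : ∀ a b, Continuous fun θ => α a b (circleMap 0 ρ θ) := fun a b =>
    cont_cm' hρ.le hρ1 (dα a b)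
  have α0 : ∀ a b, α a b 0 = ⟪a, b⟫_ℂ := fun a b => by simp [hα, e.R_zero]
  set Z : H → H → ℝ := fun a b => avg (fun θ => ‖α a b (circleMap 0 ρ θ)‖ ^ 2) with hZ
  have Z0 : ∀ a b, 0 ≤ Z a b := fun a b => avg_nonneg fun _ => sq_nonneg _
  have hmem := cm_mem hρ.le hρ1
  have hne : ∀ θ, circleMap 0 ρ θ ≠ 0 := fun θ => circleMap_ne_center hρ.ne'
  have hgO : ∀ θ, e.g (circleMap 0 ρ θ) ∈ O := fun θ => hg' _ (circleMap_mem_sphere 0 hρ.le θ)
  -- the resolvent identities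
  have RQ : ∀ θ i j, e.R A (circleMap 0 ρ θ) * Q i j
      = v i j (e.g (circleMap 0 ρ θ)) • e.R A (circleMap 0 ρ θ)
        - e.n (circleMap 0 ρ θ) • h i j (e.g (circleMap 0 ρ θ)) := fun θ i j => by
    have h1 := congrArg (e.R A (circleMap 0 ρ θ) * ·) (hh' i j _ (hgO θ)).1
    simp only [← mul_assoc, (e.R_mul hA (hmem θ) (hne θ)).1, mul_sub, mul_smul_comm, mul_one,
      smul_mul_assoc, one_mul] at h1
    rw [← h1]; abel
  have QR : ∀ θ i j, Q i j * e.R A (circleMap 0 ρ θ)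
      = v i j (e.g (circleMap 0 ρ θ)) • e.R A (circleMap 0 ρ θ)
        - e.n (circleMap 0 ρ θ) • h i j (e.g (circleMap 0 ρ θ)) := fun θ i j => by
    have h1 := congrArg (· * e.R A (circleMap 0 ρ θ)) (hh' i j _ (hgO θ)).2
    simp only [mul_assoc, (e.R_mul hA (hmem θ) (hne θ)).2, sub_mul, mul_smul_comm, mul_one,
      smul_mul_assoc, one_mul] at h1
    rw [← h1]; abel
  have dh : ∀ a b i j, DifferentiableOn ℂ (fun σ => ⟪a, h i j σ b⟫_ℂ) O := fun a b i j =>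
    (innerSL ℂ a).differentiable.comp_differentiableOn
      ((hh i j).clm_apply (differentiableOn_const b))
  -- a general consequence of the key inequality
  have keyG : ∀ (a b : H) (Hh : ℂ → ℂ) (G : ℝ → ℂ), DifferentiableOn ℂ Hh O →
      (∀ θ, κ * α a b (circleMap 0 ρ θ) + e.n (circleMap 0 ρ θ) * Hh (e.g (circleMap 0 ρ θ))
        = G θ) → Continuous G ∧
      κ ^ 2 * (Z a b + ‖⟪a, b⟫_ℂ‖ ^ 2) ≤ 2 * avg (fun θ => ‖G θ‖ ^ 2) := by
    intro a b Hh G hH hG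
    constructor
    · rw [← funext hG]
      exact ((cα a b).const_smul (κ : ℂ)).add ((e.cont_n hρ hρ1).mul
        (hH.continuousOn.comp_continuous (e.cont_g hρ hρ1) hgO))
    · have h1 := e.key hO hOc hρ hρ1 hg' (a := fun u => κ * α a b u) ((dα a b).const_mul _) hH
      simp only [hG, norm_mul, mul_pow, Complex.norm_real, Real.norm_eq_abs, sq_abs,
        avg_const_mul_real, α0] at h1
      simp only [hZ]
      linarith
  have keyY := fun k i => keyG (y k) (y i) (fun σ => ∑ j, ⟪y k, h i j σ (x j)⟫_ℂ)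
    (fun θ => ∑ j, v i j (e.g (circleMap 0 ρ θ)) * α (y k) (x j) (circleMap 0 ρ θ))
    (DifferentiableOn.fun_sum fun j _ => dh _ _ _ _) (fun θ => by
      have h1 : κ * α (y k) (y i) (circleMap 0 ρ θ)
          = ∑ j, ⟪y k, (e.R A (circleMap 0 ρ θ) * Q i j) (x j)⟫_ℂ := by
        simp only [hα, mul_apply_eq_comp, ← inner_sum, ← map_sum, hx, map_smul,
          inner_smul_right]
      rw [h1]
      simp only [RQ, Finset.mul_sum, ← Finset.sum_add_distrib, hα,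
        sub_apply, smul_apply, inner_sub_right,
        inner_smul_right, sub_add_cancel])
  have keyX := fun j k => keyG (x j) (x k) (fun σ => ∑ i, ⟪y i, h i j σ (x k)⟫_ℂ)
    (fun θ => ∑ i, v i j (e.g (circleMap 0 ρ θ)) * α (y i) (x k) (circleMap 0 ρ θ))
    (DifferentiableOn.fun_sum fun i _ => dh _ _ _ _) (fun θ => by
      have h1 : κ * α (x j) (x k) (circleMap 0 ρ θ)
          = ∑ i, ⟪y i, (Q i j * e.R A (circleMap 0 ρ θ)) (x k)⟫_ℂ := by
        simp only [hα, mul_apply_eq_comp, hy]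
      rw [h1]
      simp only [QR, Finset.mul_sum, ← Finset.sum_add_distrib, hα,
        sub_apply, smul_apply, inner_sub_right,
        inner_smul_right, sub_add_cancel])
  set B : ℝ := ∑ i, ∑ j, Z (y i) (x j) with hB
  have sY : κ ^ 2 * ∑ k, ∑ i, (Z (y k) (y i) + ‖⟪y k, y i⟫_ℂ‖ ^ 2) ≤ 2 * M ^ 2 * B := by
    rw [hB, Finset.mul_sum, Finset.mul_sum]
    refine Finset.sum_le_sum fun k _ => ?_
    rw [Finset.mul_sum]
    refine (Finset.sum_le_sum fun i _ => (keyY k i).2).trans ?_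
    rw [← Finset.mul_sum, ← avg_sum _ fun i _ => (keyY k i).1.norm.fun_pow 2, mul_assoc]
    simp only [hZ]
    rw [← avg_sum _ fun j _ => (cα _ _).norm.fun_pow 2, ← avg_const_mul_real (M ^ 2)]
    refine mul_le_mul_of_nonneg_left (avg_mono ?_ ?_ fun θ => hM _ (hgO θ) _) zero_le_two
    · exact continuous_finsetSum _ fun i _ => (keyY k i).1.norm.fun_pow 2
    · exact continuous_const.mul (continuous_finsetSum _ fun j _ => (cα _ _).norm.fun_pow 2)
  have sX : κ ^ 2 * ∑ j, ∑ k, (Z (x j) (x k) + ‖⟪x j, x k⟫_ℂ‖ ^ 2) ≤ 2 * M ^ 2 * B := by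
    rw [hB, Finset.sum_comm, Finset.sum_comm (f := fun i j => Z (y i) (x j)), Finset.mul_sum,
      Finset.mul_sum]
    refine Finset.sum_le_sum fun k _ => ?_
    rw [Finset.mul_sum]
    refine (Finset.sum_le_sum fun j _ => (keyX j k).2).trans ?_
    rw [← Finset.mul_sum, ← avg_sum _ fun j _ => (keyX j k).1.norm.fun_pow 2, mul_assoc]
    simp only [hZ]
    rw [← avg_sum _ fun j _ => (cα _ _).norm.fun_pow 2, ← avg_const_mul_real (M ^ 2)]
    refine mul_le_mul_of_nonneg_left (avg_mono ?_ ?_ fun θ => hM' _ (hgO θ) _) zero_le_two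
    · exact continuous_finsetSum _ fun j _ => (keyX j k).1.norm.fun_pow 2
    · exact continuous_const.mul (continuous_finsetSum _ fun j _ => (cα _ _).norm.fun_pow 2)
  -- the positivity inequality
  have hav : ∀ a b, avg (fun θ => ‖α a b (circleMap 0 ρ θ) + conj (α b a (circleMap 0 ρ θ))‖ ^ 2)
      = Z a b + Z b a + 2 * ‖⟪a, b⟫_ℂ‖ ^ 2 := fun a b => by
    rw [avg_norm_add_conj (cα a b) (cα b a),
      mean_value hρ ((dα a b).fun_mul (dα b a)) (closedBall_subset_ball hρ1), α0, α0,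
      ← inner_conj_symm b a, Complex.mul_conj']
    norm_cast
  have cs : ∀ (t : ℝ) a b, Continuous fun θ =>
      t * ‖α a b (circleMap 0 ρ θ) + conj (α b a (circleMap 0 ρ θ))‖ ^ 2 := fun t a b =>
    continuous_const.mul (((cα a b).add (continuous_conj.comp (cα b a))).norm.fun_pow 2)
  have hpos := avg_nonneg fun θ => signed_hs (e.R A (circleMap 0 ρ θ)) (e.re_R hA (hmem θ))
    (Sum.elim x y) (Sum.elim (fun _ => (1 : ℝ)) (fun _ => -1))
  rw [avg_sum _ fun a _ => continuous_finsetSum _ fun b _ => cs _ _ _] at hpos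
  simp only [avg_sum _ fun b _ => cs _ _ _] at hpos
  simp only [avg_const_mul_real] at hpos
  have hpos' : 0 ≤ ∑ a, ∑ b, Sum.elim (fun _ => (1 : ℝ)) (fun _ => -1) a
      * Sum.elim (fun _ => (1 : ℝ)) (fun _ => -1) b * (Z (Sum.elim x y a) (Sum.elim x y b)
        + Z (Sum.elim x y b) (Sum.elim x y a) + 2 * ‖⟪Sum.elim x y a, Sum.elim x y b⟫_ℂ‖ ^ 2) := by
    simp only [← hav]
    exact hpos
  simp only [Fintype.sum_sum_type, Sum.elim_inl, Sum.elim_inr, mul_one, one_mul, mul_neg, neg_mul,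
    Finset.sum_add_distrib, Finset.sum_neg_distrib, ← Finset.mul_sum] at hpos' sX sY
  rw [Finset.sum_comm (f := fun a b => Z (x b) (x a)), Finset.sum_comm (f := fun a b => Z (y b) (y a)),
    Finset.sum_comm (f := fun a b => Z (y b) (x a)), ← hB] at hpos'
  have n1 : 0 ≤ ∑ a, ∑ b, Z (x a) (y b) :=
    Finset.sum_nonneg fun _ _ => Finset.sum_nonneg fun _ _ => Z0 _ _
  have n2 : 0 ≤ ∑ a, ∑ b, Z (x b) (y a) :=
    Finset.sum_nonneg fun _ _ => Finset.sum_nonneg fun _ _ => Z0 _ _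
  have n3 : 0 ≤ ∑ a, ∑ b, ‖⟪x a, y b⟫_ℂ‖ ^ 2 := by positivity
  have n4 : 0 ≤ ∑ a, ∑ b, ‖⟪y a, x b⟫_ℂ‖ ^ 2 := by positivity
  have n5 : 0 ≤ ∑ a, ∑ b, Z (x a) (x b) :=
    Finset.sum_nonneg fun _ _ => Finset.sum_nonneg fun _ _ => Z0 _ _
  have n6 : 0 ≤ ∑ a, ∑ b, Z (y a) (y b) :=
    Finset.sum_nonneg fun _ _ => Finset.sum_nonneg fun _ _ => Z0 _ _
  have n7 : 0 ≤ ∑ a, ∑ b, ‖⟪x a, x b⟫_ℂ‖ ^ 2 := by positivity
  have n8 : 0 < ∑ a, ∑ b, ‖⟪y a, y b⟫_ℂ‖ ^ 2 := by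
    obtain ⟨i, hi⟩ := hy0
    refine Finset.sum_pos' (fun _ _ => by positivity) ⟨i, Finset.mem_univ _, ?_⟩
    refine Finset.sum_pos' (fun _ _ => by positivity) ⟨i, Finset.mem_univ _, ?_⟩
    exact pow_pos (norm_pos_iff.2 (inner_self_ne_zero.2 hi)) 2
  set S := (∑ a, ∑ b, Z (x a) (x b) + ∑ a, ∑ b, ‖⟪x a, x b⟫_ℂ‖ ^ 2)
    + (∑ a, ∑ b, Z (y a) (y b) + ∑ a, ∑ b, ‖⟪y a, y b⟫_ℂ‖ ^ 2) with hS
  have hS0 : 0 < S := by positivity
  have hBS : B ≤ S := by linarith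
  have h1 : κ ^ 2 * S ≤ 4 * M ^ 2 * S := by
    have : κ ^ 2 * S ≤ 4 * M ^ 2 * B := by rw [hS, mul_add]; linarith
    exact this.trans (by gcongr)
  exact le_of_mul_le_mul_right h1 hS0

end Ext

omit [FiniteDimensional ℂ H] in
theorem th_aux (B : H →L[ℂ] H) {x y : H} (hx : ‖x‖ = 1) (hy : ‖y‖ = 1) (h1 : ⟪x, B x⟫_ℂ = 1)
    (h0 : ⟪y, B y⟫_ℂ = 0) {t : ℝ} (ht0 : 0 ≤ t) (ht1 : t ≤ 1) : (t : ℂ) ∈ nr B := by
  obtain ⟨l, hl, hl'⟩ : ∃ l : ℂ, ‖l‖ = 1 ∧ (l * (⟪y, B x⟫_ℂ - conj ⟪x, B y⟫_ℂ)).im = 0 := by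
    obtain ⟨l, hl, hl'⟩ := Complex.exists_norm_eq_mul_self (⟪y, B x⟫_ℂ - conj ⟪x, B y⟫_ℂ)
    exact ⟨l, hl, by rw [← hl']; simp⟩
  set r : ℝ := (conj l * ⟪x, B y⟫_ℂ + l * ⟪y, B x⟫_ℂ).re with hr
  have hr' : conj l * ⟪x, B y⟫_ℂ + l * ⟪y, B x⟫_ℂ = r := by
    apply Complex.ext
    · simp [hr]
    · simp only [mul_im, sub_re, sub_im, conj_re, conj_im, add_im, ofReal_im] at hl' ⊢
      linarith
  have hll : conj l * l = 1 := by rw [Complex.conj_mul', hl]; simp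
  set z : ℝ → H := fun s => (s : ℂ) • l • x + ((1 - s : ℝ) : ℂ) • y with hz
  have hq : ∀ s, ⟪z s, B (z s)⟫_ℂ = ((s ^ 2 + s * (1 - s) * r : ℝ) : ℂ) := fun s => by
    simp only [hz, map_add, map_smul, inner_add_left, inner_add_right, inner_smul_left,
      inner_smul_right, conj_ofReal, h1, h0]
    push_cast
    rw [← hr']
    linear_combination (s : ℂ) ^ 2 * hll
  have hc : Continuous fun s : ℝ => s ^ 2 + s * (1 - s) * r - t * ‖z s‖ ^ 2 := by
    simp only [hz]; fun_prop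
  obtain ⟨s, hs, hs'⟩ := intermediate_value_Icc zero_le_one hc.continuousOn
    (show (0 : ℝ) ∈ Icc _ _ from ⟨by simp [hz, hy, ht0], by simp [hz, norm_smul, hl, hx, ht1]⟩)
  have hz0 : z s ≠ 0 := by
    intro h
    have e1 : (s : ℂ) • l • x = -(((1 - s : ℝ) : ℂ) • y) := eq_neg_of_add_eq_zero_left h
    have e2 := congrArg norm e1
    simp only [norm_neg, norm_smul, hl, hx, hy, Complex.norm_real, Real.norm_eq_abs, mul_one,
      abs_of_nonneg hs.1, abs_of_nonneg (sub_nonneg.2 hs.2)] at e2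
    have e3 := congrArg (fun w => ⟪w, B w⟫_ℂ) e1
    simp only [map_neg, map_smul, inner_neg_left, inner_neg_right, inner_smul_left,
      inner_smul_right, conj_ofReal, h1, h0, mul_zero, neg_zero, mul_one] at e3
    have e4 : (s : ℂ) ^ 2 = 0 := by linear_combination e3 - (s : ℂ) ^ 2 * hll
    have e5 : s = 0 := by exact_mod_cast pow_eq_zero_iff two_ne_zero |>.1 e4
    linarith
  obtain ⟨w, hw, e⟩ := exists_nr B hz0
  have hn : ((‖z s‖ ^ 2 : ℝ) : ℂ) ≠ 0 := by exact_mod_cast pow_ne_zero 2 (norm_ne_zero_iff.2 hz0)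
  have : w = t := by
    apply mul_left_cancel₀ hn
    rw [← e, hq, sub_eq_zero.1 hs']
    push_cast; ring
  exact this ▸ hw

omit [FiniteDimensional ℂ H] in
/-- The Toeplitz--Hausdorff theorem. -/
theorem convex_nr (A : H →L[ℂ] H) : Convex ℝ (nr A) := by
  rintro a ⟨x, hx, ha⟩ b ⟨y, hy, hb⟩ s t hs ht hst
  rcases eq_or_ne a b with rfl | hab
  · rw [← add_smul, hst, one_smul]; exact ⟨x, hx, ha⟩
  have hne : a - b ≠ 0 := sub_ne_zero.2 hab
  have hin : ∀ w : H, ‖w‖ = 1 →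
      ⟪w, ((a - b)⁻¹ • (A - b • 1)) w⟫_ℂ = (a - b)⁻¹ * (⟪w, A w⟫_ℂ - b) := fun w hw => by
    simp [inner_self_eq_norm_sq_to_K, hw]
  obtain ⟨w, hw, e⟩ := th_aux ((a - b)⁻¹ • (A - b • 1)) hx hy
    (by rw [hin x hx, ← ha, inv_mul_cancel₀ hne]) (by rw [hin y hy, ← hb]; simp) hs
    (by linarith)
  refine ⟨w, hw, ?_⟩
  rw [hin w hw] at e
  have h1 : (t : ℂ) = 1 - s := by rw [← ofReal_one, ← hst]; push_cast; ring
  rw [real_smul, real_smul, h1, e]
  field_simp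
  ring

theorem isCompact_nr (A : H →L[ℂ] H) : IsCompact (nr A) := by
  have := FiniteDimensional.proper_rclike ℂ H
  have h := (isCompact_sphere (0 : H) 1).image (f := fun x => ⟪x, A x⟫_ℂ) (by fun_prop)
  convert h using 1
  ext z
  simp [nr, eq_comm]

theorem exists_max_pair (T : H →L[ℂ] H) (hT : 0 < ‖T‖) :
    ∃ x y : H, y ≠ 0 ∧ T x = (‖T‖ : ℂ) • y ∧ ∀ z, ⟪y, T z⟫_ℂ = ‖T‖ * ⟪x, z⟫_ℂ := by
  have := FiniteDimensional.proper_rclike ℂ H
  have := FiniteDimensional.complete ℂ H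
  have hnt : Nontrivial H := by
    by_contra h
    rw [not_nontrivial_iff_subsingleton] at h
    simp [Subsingleton.elim T 0] at hT
  obtain ⟨x, hx, hmax⟩ := (isCompact_sphere (0 : H) 1).exists_isMaxOn
    (NormedSpace.sphere_nonempty_rclike ℂ zero_le_one |>.elim fun w => ⟨w.1, w.2⟩)
    (f := fun x => ‖T x‖) (by fun_prop)
  rw [mem_sphere_zero_iff_norm] at hx
  have hTx : ‖T x‖ = ‖T‖ := le_antisymm (by simpa [hx] using T.le_opNorm x)
    (ContinuousLinearMap.opNorm_le_of_unit_norm (norm_nonneg _) fun w hw =>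
      hmax (mem_sphere_zero_iff_norm.2 hw))
  have hκ : (‖T‖ : ℂ) ≠ 0 := by exact_mod_cast hT.ne'
  set y := (‖T‖ : ℂ)⁻¹ • T x with hy
  have hy1 : ‖y‖ = 1 := by
    rw [hy, norm_smul, norm_inv, Complex.norm_real, norm_norm, hTx, inv_mul_cancel₀ hT.ne']
  have hTy : T x = (‖T‖ : ℂ) • y := by rw [hy, smul_smul, mul_inv_cancel₀ hκ, one_smul]
  have h1 : ‖T.adjoint y‖ ≤ ‖T‖ := by
    simpa [hy1] using T.adjoint.le_opNorm y
  have h2 : ⟪T.adjoint y, (‖T‖ : ℂ) • x⟫_ℂ = ((‖T‖ ^ 2 : ℝ) : ℂ) := by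
    rw [inner_smul_right, ContinuousLinearMap.adjoint_inner_left, hTy, inner_smul_right,
      inner_self_eq_norm_sq_to_K, hy1]
    simp; ring
  have h3 : ‖T.adjoint y - (‖T‖ : ℂ) • x‖ ^ 2 ≤ 0 := by
    rw [@norm_sub_sq ℂ, h2, norm_smul, Complex.norm_real, norm_norm, hx, mul_one]
    simp only [RCLike.re_to_complex, ofReal_re]
    nlinarith [norm_nonneg (T.adjoint y)]
  have h4 : T.adjoint y = (‖T‖ : ℂ) • x :=
    sub_eq_zero.1 (norm_eq_zero.1 (pow_eq_zero_iff two_ne_zero |>.1 (le_antisymm h3 (sq_nonneg _))))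
  refine ⟨x, y, norm_ne_zero_iff.1 (by rw [hy1]; simp), hTy, fun z => ?_⟩
  rw [← ContinuousLinearMap.adjoint_inner_left, h4, inner_smul_left, conj_ofReal]

/-- A bound for a matrix gives the same bound for its transpose. -/
theorem transpose_bound {m : Type*} [Fintype m] {v : m → m → ℂ} {M : ℝ}
    (hM : ∀ w : m → ℂ, ∑ i, ‖∑ j, v i j * w j‖ ^ 2 ≤ M ^ 2 * ∑ j, ‖w j‖ ^ 2) (w : m → ℂ) :
    ∑ j, ‖∑ i, v i j * w i‖ ^ 2 ≤ M ^ 2 * ∑ i, ‖w i‖ ^ 2 := by
  set t : m → ℂ := fun j => ∑ i, v i j * w i with ht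
  set T : ℝ := ∑ j, ‖t j‖ ^ 2 with hT
  have hT0 : 0 ≤ T := by positivity
  have h1 : (T : ℂ) = ∑ i, w i * ∑ j, v i j * conj (t j) := by
    simp only [Finset.mul_sum]
    rw [Finset.sum_comm, hT]
    push_cast
    refine Finset.sum_congr rfl fun j _ => ?_
    rw [← Complex.mul_conj']
    conv_lhs => rw [ht]
    simp only [Finset.sum_mul]
    exact Finset.sum_congr rfl fun i _ => by ring
  have h2 : T ≤ ∑ i, ‖w i‖ * ‖∑ j, v i j * conj (t j)‖ := by
    have := congrArg norm h1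
    rw [Complex.norm_real, Real.norm_of_nonneg hT0] at this
    rw [this]
    exact (norm_sum_le _ _).trans (by simp)
  have h3 := Finset.sum_mul_sq_le_sq_mul_sq Finset.univ (fun i => ‖w i‖)
    (fun i => ‖∑ j, v i j * conj (t j)‖)
  have h4 := hM fun j => conj (t j)
  simp only [RCLike.norm_conj, ← hT] at h4
  have hW : 0 ≤ ∑ i, ‖w i‖ ^ 2 := by positivity
  have h5 : T * T ≤ (M ^ 2 * ∑ i, ‖w i‖ ^ 2) * T := by
    calc T * T ≤ (∑ i, ‖w i‖ * ‖∑ j, v i j * conj (t j)‖) ^ 2 := by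
          rw [sq]; exact mul_self_le_mul_self hT0 h2
      _ ≤ (∑ i, ‖w i‖ ^ 2) * (M ^ 2 * T) := h3.trans (mul_le_mul_of_nonneg_left h4 hW)
      _ = _ := by ring
  rcases hT0.eq_or_lt with h | h
  · rw [← h]; positivity
  · exact le_of_mul_le_mul_right h5 h

/-- The completely bounded Crouzeix inequality. -/
theorem crouzeix {A : H →L[ℂ] H} {O : Set ℂ} (hO : IsOpen O) (hOc : Convex ℝ O) (hA : nr A ⊆ O)
    {m : Type*} [Fintype m] {v : m → m → ℂ → ℂ} {Q : m → m → H →L[ℂ] H}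
    (hQ : ∀ i j, Calc A O (v i j) (Q i j)) {M : ℝ}
    (hM : ∀ σ ∈ O, ∀ w : m → ℂ, ∑ i, ‖∑ j, v i j σ * w j‖ ^ 2 ≤ M ^ 2 * ∑ j, ‖w j‖ ^ 2)
    (x : m → H) : ∑ i, ‖∑ j, Q i j (x j)‖ ^ 2 ≤ 4 * M ^ 2 * ∑ j, ‖x j‖ ^ 2 := by
  let L : PiLp 2 (fun _ : m => H) →ₗ[ℂ] PiLp 2 (fun _ : m => H) :=
    { toFun := fun x => WithLp.toLp 2 fun i => ∑ j, Q i j (x j)
      map_add' := fun x y => by ext i; simp [Finset.sum_add_distrib]
      map_smul' := fun c x => by ext i; simp [Finset.smul_sum] }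
  set T := LinearMap.toContinuousLinearMap L with hT
  have hTa : ∀ x i, T x i = ∑ j, Q i j (x j) := fun x i => rfl
  suffices hs : ‖T‖ ^ 2 ≤ 4 * M ^ 2 by
    have h1 := T.le_opNorm (WithLp.toLp 2 x)
    have h2 : ‖T (WithLp.toLp 2 x)‖ ^ 2 ≤ ‖T‖ ^ 2 * ‖WithLp.toLp 2 x‖ ^ 2 := by
      rw [← mul_pow]; gcongr
    rw [PiLp.norm_sq_eq_of_L2, PiLp.norm_sq_eq_of_L2] at h2
    simp only [hTa] at h2
    exact h2.trans (by gcongr)
  rcases (norm_nonneg T).eq_or_lt with h0 | h0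
  · rw [← h0]; nlinarith [sq_nonneg M]
  obtain ⟨x, y, hy0, hxy, hyx⟩ := exists_max_pair T h0
  obtain ⟨i, hi⟩ : ∃ i, y i ≠ 0 := by
    by_contra h
    push Not at h
    exact hy0 (by ext i; simp [h i])
  obtain ⟨z₀, hz₀, -⟩ := exists_nr A hi
  obtain ⟨δ, hδ, hδO⟩ := (isCompact_nr A).exists_cthickening_subset_open hO hA
  have hnr : ∀ z, z ∈ nr (A - z₀ • 1) → z + z₀ ∈ nr A := by
    rintro z ⟨w, hw, rfl⟩
    exact ⟨w, hw, by simp [inner_self_eq_norm_sq_to_K, hw]⟩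
  have hKc : IsCompact ((fun σ => σ + z₀) ⁻¹' cthickening δ (nr A)) :=
    (Homeomorph.addRight z₀).isCompact_preimage.2 (isCompact_nr A).cthickening
  obtain ⟨e⟩ := nonempty_ext hKc (((convex_nr A).cthickening δ).translate_preimage_left z₀)
    ((continuous_add_const z₀).continuousAt.preimage_mem_nhds (by
      rw [zero_add]
      exact mem_of_superset (closedBall_mem_nhds z₀ hδ) (closedBall_subset_cthickening hz₀ δ)))
  classical
  refine e.core (A := A - z₀ • 1) (fun z hz => self_subset_cthickening _ (hnr z hz))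
    (hO.preimage (continuous_add_const z₀)) (hOc.translate_preimage_left z₀)
    (preimage_mono hδO) (fun i j => (hQ i j).translate z₀) (fun σ hσ => hM _ hσ)
    (fun σ hσ => transpose_bound (hM _ hσ)) (x := fun j => x j) (y := fun i => y i)
    (fun i => ?_) (fun j z => ?_) ⟨i, hi⟩
  · rw [← hTa, hxy]; rfl
  · have := hyx (WithLp.toLp 2 (Pi.single j z))
    simp only [PiLp.inner_apply, hTa] at this
    have e1 : ∀ i, ∑ b, Q i b ((Pi.single j z : m → H) b) = Q i j z := fun i => by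
      rw [Finset.sum_eq_single j (fun b _ hb => by simp [hb]) (by simp)]
      simp
    have e2 : ∑ b, ⟪x b, (Pi.single j z : m → H) b⟫_ℂ = ⟪x j, z⟫_ℂ := by
      rw [Finset.sum_eq_single j (fun b _ hb => by simp [hb]) (by simp)]
      simp
    simpa only [e1, e2] using this

end Crest.Agent.R132
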